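import Vale.Agent.P366.H896.X1d

/-! The Kerr-Schild metric `ksG lam V` of `H222/Defs`: the consequences of the dominant energy
condition. -/

open MeasureTheory Metric Filter Topology Set
open scoped ContDiff ENNReal

noncomputable section
namespace Vale.Agent.P366.KS

open Vale.Agent.P366 (pd E)
open Vale.Agent.P366.H353
open Vale.Agent.P366.H896

namespace X1

section General

variable {n : ℕ}

/-- the bilinear form with the matrix `g` -/
def Bf (g : Fin n → Fin n → ℝ) (X Y : Fin n → ℝ) : ℝ := ∑ i, ∑ j, g i j * X i * Y j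

lemma Bf_lin (g : Fin n → Fin n → ℝ) (X Y X' Y' : Fin n → ℝ) (c : ℝ) :
    Bf g (fun i => X i + c * Y i) (fun j => X' j + c * Y' j) =
      Bf g X X' + c * (Bf g X Y' + Bf g Y X') + c ^ 2 * Bf g Y Y' := by
  unfold Bf
  simp only [Finset.mul_sum, ← Finset.sum_add_distrib]
  exact Finset.sum_congr rfl fun i _ => Finset.sum_congr rfl fun j _ => by ring

lemma lin_lin (w : Fin n → ℝ) (X Y : Fin n → ℝ) (c : ℝ) :
    ∑ i, w i * (X i + c * Y i) = ∑ i, w i * X i + c * ∑ i, w i * Y i := by
  simp only [Finset.mul_sum, ← Finset.sum_add_distrib]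
  exact Finset.sum_congr rfl fun i _ => by ring

lemma lim_nonneg {a b c : ℝ} (h : ∀ t : ℝ, 0 < t → 0 ≤ a + t * b + t ^ 2 * c) : 0 ≤ a := by
  have h1 : Tendsto (fun t : ℝ => a + t * b + t ^ 2 * c) (𝓝[>] 0) (𝓝 (a + 0 * b + 0 ^ 2 * c)) := by
    have : Continuous fun t : ℝ => a + t * b + t ^ 2 * c := by fun_prop
    exact (this.tendsto 0).mono_left nhdsWithin_le_nhds
  have h2 : 0 ≤ a + 0 * b + 0 ^ 2 * c :=
    ge_of_tendsto h1 (eventually_mem_nhdsWithin.mono fun t ht => h t ht)
  simpa using h2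

/-- The dominant energy condition on null vectors. -/
lemma dec_null {g : Stmt.Field n} {w : Stmt.E n → ℝ} {x : Stmt.E n} (h : DECat g w x)
    {K l : Fin n → ℝ} (hKK : Bf (g x) K K = 0) (hll : Bf (g x) l l = 0)
    (hKl : Bf (g x) K l = -1) (hlK : Bf (g x) l K = -1) (hwK : ∑ i, Stmt.pd i w x * K i = 0)
    (hwl : ∑ i, Stmt.pd i w x * l i = 1) :
    0 ≤ Bf (fun i j => ein g i j x) K l ∧ 0 ≤ Bf (fun i j => ein g i j x) l l := by
  have hX : ∀ t : ℝ, 0 < t → FutureTimelike g w x (fun i => K i + t * l i) := by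
    intro t ht
    constructor
    · show Bf (g x) (fun i => K i + t * l i) (fun i => K i + t * l i) < 0
      rw [Bf_lin, hKK, hll, hKl, hlK]; linarith
    · rw [lin_lin, hwK, hwl]; linarith
  have hY : ∀ t : ℝ, 0 < t → FutureTimelike g w x (fun i => l i + t * K i) := by
    intro t ht
    constructor
    · show Bf (g x) (fun i => l i + t * K i) (fun i => l i + t * K i) < 0
      rw [Bf_lin, hKK, hll, hKl, hlK]; linarith
    · rw [lin_lin, hwK, hwl]; linarith
  constructor
  · refine lim_nonneg (b := Bf (fun i j => ein g i j x) K K + Bf (fun i j => ein g i j x) l l)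
      (c := Bf (fun i j => ein g i j x) l K) fun t ht => ?_
    rw [← Bf_lin]
    exact h _ _ (hX t ht) (hY t ht)
  · refine lim_nonneg (b := Bf (fun i j => ein g i j x) l K + Bf (fun i j => ein g i j x) K l)
      (c := Bf (fun i j => ein g i j x) K K) fun t ht => ?_
    rw [← Bf_lin]
    exact h _ _ (hY t ht) (hY t ht)

lemma ein_eq (g : Stmt.Field n) (i j : Fin n) (x : Stmt.E n) :
    ein g i j x = H896.ein g i j x := by
  unfold ein H896.ein
  show ric g i j x - _ = ric g i j x - _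
  ring

/-- The dominant energy condition for a metric of Kerr-Schild form. -/
theorem dec_ks {e : Fin n → ℝ} {g : Stmt.Field n} {w V : Stmt.E n → ℝ} {U : Set (Stmt.E n)}
    (hT : KSg e g w V U) {x : Stmt.E n} (hx : x ∈ U) (h : DECat g w x) {l : Fin n → ℝ}
    (hl : ∑ a, l a * Stmt.pd a w x = 1) (hl2 : ∀ b, ∑ a, l a * Stmt.pd a (Stmt.pd b w) x = 0)
    (hll : ∑ a, ∑ b, g x a b * l a * l b = 0) :
    0 ≤ th e w x * Vk e w V x + V x * (th e w x ^ 2 - ww e w x) ∧
      0 ≤ th e w x * (∑ a, l a * Stmt.pd a V x) + ∑ a, l a * Xa e w V a x +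
        (-bx e V x + V x * (Vkk e w V x + th e w x * Vk e w V x)) / 2 := by
  have hgs : ∀ a b, g x a b = g x b a := by
    intro a b
    rw [hT.hg x hx, hT.hg x hx]
    by_cases hab : a = b
    · subst hab; rfl
    · rw [if_neg hab, if_neg (Ne.symm hab)]; ring
  set K : Fin n → ℝ := fun a => -(e a * Stmt.pd a w x) with hKdef
  have hKY : ∀ Y : Fin n → ℝ, Bf (g x) K Y = - ∑ b, Y b * Stmt.pd b w x := by
    intro Y
    unfold Bf
    rw [Finset.sum_comm, ← Finset.sum_neg_distrib]
    refine Finset.sum_congr rfl fun b _ => ?_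
    have h1 := hT.g_k hx b
    calc ∑ i, g x i b * K i * Y b = - (Y b * ∑ a, (e a * Stmt.pd a w x) * g x a b) := by
          rw [Finset.mul_sum, ← Finset.sum_neg_distrib]
          exact Finset.sum_congr rfl fun a _ => by rw [hKdef]; ring
      _ = _ := by rw [h1]
  have hsym : ∀ X Y, Bf (g x) X Y = Bf (g x) Y X := by
    intro X Y
    unfold Bf
    rw [Finset.sum_comm]
    exact Finset.sum_congr rfl fun i _ => Finset.sum_congr rfl fun j _ => by rw [hgs j i]; ring
  have hwK : ∑ i, Stmt.pd i w x * K i = 0 := by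
    rw [← neg_eq_zero, ← Finset.sum_neg_distrib, ← hT.null x hx]
    exact Finset.sum_congr rfl fun a _ => by rw [hKdef]; ring
  have hwK' : ∑ i, K i * Stmt.pd i w x = 0 := by
    rw [← hwK]; exact Finset.sum_congr rfl fun a _ => mul_comm _ _
  have hwl : ∑ i, Stmt.pd i w x * l i = 1 := by
    rw [← hl]; exact Finset.sum_congr rfl fun a _ => mul_comm _ _
  have hKl : Bf (g x) K l = -1 := by rw [hKY, hl]
  obtain ⟨h1, h2⟩ := dec_null h (K := K) (l := l) (by rw [hKY, hwK', neg_zero]) hll hKl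
    (by rw [hsym, hKl]) hwK hwl
  constructor
  · have h3 : Bf (fun i j => ein g i j x) K l =
        (th e w x * Vk e w V x + V x * (th e w x ^ 2 - ww e w x)) / 2 := by
      unfold Bf
      rw [Finset.sum_comm]
      have e1 : ∀ b, ∑ a, ein g a b x * K a * l b =
          ((th e w x * Vk e w V x + V x * (th e w x ^ 2 - ww e w x)) / 2) *
            (l b * Stmt.pd b w x) := by
        intro b
        have e2 : ∑ a, ein g a b x * K a * l b =
            - (l b * ∑ a, (e a * Stmt.pd a w x) * H896.ein g a b x) := by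
          rw [Finset.mul_sum, ← Finset.sum_neg_distrib]
          exact Finset.sum_congr rfl fun a _ => by rw [hKdef, ein_eq]; ring
        rw [e2, hT.ein_k hx b]; ring
      rw [Finset.sum_congr rfl fun b _ => e1 b, ← Finset.mul_sum, hl, mul_one]
    rw [h3] at h1
    linarith
  · have h3 := hT.ein_l hx hl hl2 hll
    have h4 : Bf (fun i j => ein g i j x) l l = ∑ a, ∑ b, H896.ein g a b x * l a * l b :=
      Finset.sum_congr rfl fun i _ => Finset.sum_congr rfl fun j _ => by
        show ein g i j x * l i * l j = _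
        rw [ein_eq]
    rw [h4, h3] at h2
    exact h2

end General

end X1

open X1 in
/-- **The dominant energy condition for the Kerr-Schild metric.** -/
theorem dec_ineq {lam : E 3 → ℝ} {V : E 4 → ℝ} {p : E 4} (hl : ContDiffAt ℝ ∞ lam (sp p))
    (hg : ∀ᶠ z in 𝓝 (sp p), ∑ i, pd i lam z ^ 2 = 1) (hV : ContDiffAt ℝ ∞ V p)
    (h : DECat (ksG lam V) (nul lam) p) :
    0 ≤ lap lam (sp p) * ((∑ i : Fin 3, pd i lam (sp p) * pd i.succ V p) - pd 0 V p) +
        V p * (lap lam (sp p) ^ 2 - ∑ i, ∑ j, H353.hs lam i j (sp p) ^ 2) ∧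
      0 ≤ lap lam (sp p) * pd 0 V p - ((∑ i : Fin 3, pd i.succ (pd i.succ V) p) -
        (∑ i : Fin 3, ∑ j : Fin 3,
          pd i lam (sp p) * pd j lam (sp p) * pd i.succ (pd j.succ V) p) -
        lap lam (sp p) * ∑ i : Fin 3, pd i lam (sp p) * pd i.succ V p) := by
  obtain ⟨U, hpU, hK, hlU, hgU⟩ := ks0 hl hV (P := fun z => ∑ i, pd i lam (sp z) ^ 2 = 1)
    (sp_cont.continuousAt.eventually hg)
  have hT : KSg sg (ksG lam V) (nul lam) V U := ⟨hK, fun z hz =>
    null_of ((hlU z hz).differentiableAt (by simp)) (hgU z hz)⟩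
  have hl1 : DifferentiableAt ℝ lam (sp p) :=
    (hl.of_le (nat_le_smooth 1)).differentiableAt (by simp)
  have hV1 : DifferentiableAt ℝ V p :=
    (hV.of_le (nat_le_smooth 1)).differentiableAt (by simp)
  have hw : ∀ a, Stmt.pd a (nul lam) p = (Fin.cons 1 fun i => pd i lam (sp p) : Fin 4 → ℝ) a :=
    spd_nul hl1
  have hw0 : Stmt.pd 0 (nul lam) p = 1 := hw 0
  have hws : ∀ i : Fin 3, Stmt.pd i.succ (nul lam) p = pd i lam (sp p) := fun i => hw i.succ
  have hh := spd2_nul (p := p) hl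
  have hh0 : ∀ b, Stmt.pd 0 (Stmt.pd b (nul lam)) p = 0 := fun b => hh 0 b
  have hh0' : ∀ a, Stmt.pd a (Stmt.pd 0 (nul lam)) p = 0 := by
    intro a; rw [hh]; refine Fin.cases rfl (fun i => rfl) a
  have hhs : ∀ i j : Fin 3, Stmt.pd i.succ (Stmt.pd j.succ (nul lam)) p =
      H353.hs lam i j (sp p) := fun i j => hh i.succ j.succ
  have hd : ∀ a, Stmt.pd a V p = pd a V p := fun a => Bridge.pd_eq hV1 a
  have hdd : ∀ a b, Stmt.pd a (Stmt.pd b V) p = pd a (pd b V) p := by
    intro a b
    have h1 : Stmt.pd b V =ᶠ[𝓝 p] pd b V := by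
      have h2 : ∀ᶠ z in 𝓝 p, ContDiffAt ℝ ((1 : ℕ) : WithTop ℕ∞) V z :=
        (hV.of_le (nat_le_smooth 1)).eventually (by simp)
      exact h2.mono fun z hz => Bridge.pd_eq (hz.differentiableAt (by simp)) b
    have h6 : ContDiffAt ℝ ((1 : ℕ) : WithTop ℕ∞) (fderiv ℝ V) p :=
      (hV.of_le (nat_le_smooth 2)).fderiv_right (by norm_cast)
    have h7 : DifferentiableAt ℝ (pd b V) p :=
      (h6.clm_apply contDiffAt_const).differentiableAt (by simp)
    rw [pd_congrS h1 a, Bridge.pd_eq h7]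
  have hvs : ∀ a b, pd a (pd b V) p = pd b (pd a V) p := by
    intro a b
    rw [← hdd, ← hdd]; exact hT.v2 hpU a b
  have hls : ∀ i j, H353.hs lam i j (sp p) = H353.hs lam j i (sp p) := by
    intro i j
    rw [← hhs, ← hhs]; exact hT.w2 hpU _ _
  have hg0 : ∑ i, pd i lam (sp p) ^ 2 = 1 := hgU p hpU
  have hg1 : ∀ j, ∑ i, pd i lam (sp p) * H353.hs lam i j (sp p) = 0 := by
    intro j
    have h1 := hT.null1 hpU j.succ
    rw [Fin.sum_univ_succ] at h1
    simp only [sg0, sgs, hw0, hws, hh0', hhs, one_mul, mul_zero, zero_add] at h1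
    rw [← h1]
    exact Finset.sum_congr rfl fun i _ => by rw [hls i j]
  set l : Fin 4 → ℝ := Fin.cons ((1 + V p) / 2) fun i => (1 - V p) / 2 * pd i lam (sp p) with hldef
  have l0 : l 0 = (1 + V p) / 2 := rfl
  have ls : ∀ i : Fin 3, l i.succ = (1 - V p) / 2 * pd i lam (sp p) := fun i => rfl
  have hlw : ∑ a, l a * Stmt.pd a (nul lam) p = 1 := by
    rw [Fin.sum_univ_succ]
    simp only [l0, ls, hw0, hws]
    have e1 : ∑ i, (1 - V p) / 2 * pd i lam (sp p) * pd i lam (sp p) =
        (1 - V p) / 2 * ∑ i, pd i lam (sp p) ^ 2 := by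
      rw [Finset.mul_sum]
      exact Finset.sum_congr rfl fun i _ => by ring
    rw [e1, hg0]; ring
  have hlw2 : ∀ b, ∑ a, l a * Stmt.pd a (Stmt.pd b (nul lam)) p = 0 := by
    intro b
    rw [Fin.sum_univ_succ]
    refine Fin.cases ?_ (fun j => ?_) b
    · simp only [hh0', mul_zero, Finset.sum_const_zero, add_zero]
    · simp only [hh0, hhs, ls, mul_zero, zero_add]
      have e1 : ∑ i, (1 - V p) / 2 * pd i lam (sp p) * H353.hs lam i j (sp p) =
          (1 - V p) / 2 * ∑ i, pd i lam (sp p) * H353.hs lam i j (sp p) := by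
        rw [Finset.mul_sum]
        exact Finset.sum_congr rfl fun i _ => by ring
      rw [e1, hg1, mul_zero]
  have hll : ∑ a, ∑ b, ksG lam V p a b * l a * l b = 0 := by
    have e1 : ∀ a, ∑ b, ksG lam V p a b * l a * l b = sg a * l a ^ 2 +
        V p * (l a * Stmt.pd a (nul lam) p) * ∑ b, l b * Stmt.pd b (nul lam) p := by
      intro a
      have e2 : ∀ b, ksG lam V p a b * l a * l b = (if a = b then sg a * l a ^ 2 else 0) +
          V p * (l a * Stmt.pd a (nul lam) p) * (l b * Stmt.pd b (nul lam) p) := by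
        intro b
        rw [hT.hg p hpU]
        split_ifs with hab
        · subst hab; ring
        · ring
      simp only [e2, Finset.sum_add_distrib, Finset.sum_ite_eq, Finset.mem_univ, if_true,
        ← Finset.mul_sum]
    simp only [e1, hlw, mul_one, Finset.sum_add_distrib, ← Finset.mul_sum]
    rw [Fin.sum_univ_succ]
    simp only [sg0, sgs, l0, ls, one_mul]
    have e3 : ∑ i, ((1 - V p) / 2 * pd i lam (sp p)) ^ 2 =
        ((1 - V p) / 2) ^ 2 * ∑ i, pd i lam (sp p) ^ 2 := by
      rw [Finset.mul_sum]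
      exact Finset.sum_congr rfl fun i _ => by ring
    rw [e3, hg0]; ring
  obtain ⟨h1, h2⟩ := dec_ks hT hpU h hlw hlw2 hll
  have hth : th sg (nul lam) p = lap lam (sp p) := by
    unfold th
    rw [Fin.sum_univ_succ]
    simp only [sgs, hh0', hhs, one_mul, mul_zero, zero_add]
    rfl
  have hww : ww sg (nul lam) p = ∑ i, ∑ j, H353.hs lam i j (sp p) ^ 2 := by
    unfold ww ws
    rw [Fin.sum_univ_succ]
    simp only [hh0', mul_zero, Finset.sum_const_zero, zero_add]
    refine Finset.sum_congr rfl fun i _ => ?_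
    rw [Fin.sum_univ_succ]
    simp only [sgs, hh0, hhs, one_mul, mul_zero, zero_add]
    exact Finset.sum_congr rfl fun j _ => by rw [hls j i]; ring
  have hVk : Vk sg (nul lam) V p = (∑ i : Fin 3, pd i lam (sp p) * pd i.succ V p) - pd 0 V p := by
    unfold Vk
    rw [Fin.sum_univ_succ]
    simp only [sg0, sgs, hd, hw0, hws, one_mul]
    ring
  constructor
  · rw [hth, hww, hVk] at h1
    exact h1
  · have hX : ∀ a, Xa sg (nul lam) V a p = (∑ i : Fin 3, pd i lam (sp p) * pd i.succ (pd a V) p) -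
        pd 0 (pd a V) p := by
      intro a
      unfold Xa
      rw [Fin.sum_univ_succ]
      simp only [sg0, sgs, hdd, hw0, hws, one_mul]
      ring
    have hb : bx sg V p = (∑ i : Fin 3, pd i.succ (pd i.succ V) p) - pd 0 (pd 0 V) p := by
      unfold bx
      rw [Fin.sum_univ_succ]
      simp only [sg0, sgs, hdd, one_mul]
      ring
    have hVkk : Vkk sg (nul lam) V p = (∑ i : Fin 3, pd i lam (sp p) *
        ((∑ j : Fin 3, pd j lam (sp p) * pd j.succ (pd i.succ V) p) - pd 0 (pd i.succ V) p)) -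
        ((∑ i : Fin 3, pd i lam (sp p) * pd i.succ (pd 0 V) p) - pd 0 (pd 0 V) p) := by
      unfold Vkk
      rw [Fin.sum_univ_succ]
      simp only [sg0, sgs, hX, hw0, hws, one_mul]
      ring
    rw [hth, hVk, hb, hVkk, Fin.sum_univ_succ, Fin.sum_univ_succ (f := fun a => l a * Xa _ _ _ a p)]
      at h2
    simp only [hd, hX, l0, ls] at h2
    have h3 := mul_nonneg (by norm_num : (0 : ℝ) ≤ 2) h2
    refine h3.trans_eq ?_
    simp only [hvs _ 0, Fin.sum_univ_three]
    ring

end Vale.Agent.P366.KS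
end
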