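import Vale.Agent.P366.H896.F2
import Vale.Agent.P366.H745.B

/-! The Poincaré inequality on the unit sphere. -/

noncomputable section
namespace Vale.Agent.P366.H353

open Vale.Agent.P366 (sphI sphM pd E)

theorem poincare {q : E 3 → ℝ} (hq : Q q) :
    S2 (fun x => (q x - S2 q / (4 * Real.pi)) ^ 2) ≤ S2 (gsq q) :=
  H896.poincare_of (fun h => bochner h) hq

end Vale.Agent.P366.H353
end
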