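import Vale.Agent.P366.H896.X1c
import Vale.Agent.P366.H222.Int

/-! The Kerr-Schild metric `ksG lam V` of `H222/Defs`: Christoffel symbols. -/

open MeasureTheory Metric Filter Topology Set
open scoped ContDiff ENNReal

noncomputable section
namespace Vale.Agent.P366.KS

open Vale.Agent.P366 (pd E)
open Vale.Agent.P366.H353
open Vale.Agent.P366.H896

namespace X1

/-- the signs of the Minkowski metric -/
def sg (a : Fin 4) : ℝ := if a = 0 then -1 else 1

lemma sg0 : sg 0 = -1 := rfl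
lemma sgs (i : Fin 3) : sg i.succ = 1 := by simp [sg, Fin.succ_ne_zero]

lemma sp_add (p : E 4) (i : Fin 3) (t : ℝ) :
    sp (p + t • EuclideanSpace.single i.succ (1 : ℝ)) = sp p + t • EuclideanSpace.single i 1 := by
  ext j
  simp [sp]

lemma sp_add0 (p : E 4) (t : ℝ) :
    sp (p + t • EuclideanSpace.single (0 : Fin 4) (1 : ℝ)) = sp p := by
  ext j
  simp [sp]

lemma spd_succ (F : E 3 → ℝ) (p : E 4) (i : Fin 3) :
    Stmt.pd i.succ (fun z => F (sp z)) p = Stmt.pd i F (sp p) := by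
  show deriv (fun t : ℝ => F (sp (p + t • EuclideanSpace.single i.succ (1 : ℝ)))) 0 =
    deriv (fun t : ℝ => F (sp p + t • EuclideanSpace.single i (1 : ℝ))) 0
  congr 1
  funext t
  exact congrArg F (sp_add p i t)

lemma spd_zero (F : E 3 → ℝ) (p : E 4) : Stmt.pd (0 : Fin 4) (fun z => F (sp z)) p = 0 := by
  show deriv (fun t : ℝ => F (sp (p + t • EuclideanSpace.single (0 : Fin 4) (1 : ℝ)))) 0 = 0
  have h1 : (fun t : ℝ => F (sp (p + t • EuclideanSpace.single (0 : Fin 4) (1 : ℝ)))) =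
      fun _ => F (sp p) := by
    funext t
    exact congrArg F (sp_add0 p t)
  rw [h1, deriv_const]

lemma sp_contDiff {n : WithTop ℕ∞} : ContDiff ℝ n sp := by
  rw [contDiff_euclidean]
  intro i
  exact (EuclideanSpace.proj (𝕜 := ℝ) i.succ).contDiff

lemma sp_cont : Continuous sp := sp_contDiff (n := 0).continuous

lemma nul_contDiffAt {n : WithTop ℕ∞} {lam : E 3 → ℝ} {p : E 4} (h : ContDiffAt ℝ n lam (sp p)) :
    ContDiffAt ℝ n (nul lam) p := by
  have h1 : ContDiffAt ℝ n (fun p : E 4 => p 0) p :=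
    (EuclideanSpace.proj (𝕜 := ℝ) (0 : Fin 4)).contDiff.contDiffAt
  exact h1.add (h.comp p sp_contDiff.contDiffAt)

lemma spd_nul {lam : E 3 → ℝ} {p : E 4} (h : DifferentiableAt ℝ lam (sp p)) (a : Fin 4) :
    Stmt.pd a (nul lam) p = (Fin.cons 1 fun i => pd i lam (sp p) : Fin 4 → ℝ) a := by
  have h1 : DifferentiableAt ℝ (fun z : E 4 => lam (sp z)) p :=
    h.comp p (sp_contDiff (n := 1)).contDiffAt.differentiableAt_one
  have h2 : T2.HP a (nul lam) ((if (0 : Fin 4) = a then 1 else 0) +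
      Stmt.pd a (fun z => lam (sp z)) p) p :=
    (T2.HP.coord a 0 p).add (T2.HP.of_diff h1)
  rw [h2.pd]
  refine Fin.cases ?_ (fun i => ?_) a
  · rw [spd_zero]; simp
  · rw [spd_succ, Bridge.pd_eq h]
    have : (0 : Fin 4) ≠ i.succ := (Fin.succ_ne_zero i).symm
    simp [this]

lemma nat_le_smooth (k : ℕ) : ((k : ℕ) : WithTop ℕ∞) ≤ ((⊤ : ℕ∞) : WithTop ℕ∞) :=
  WithTop.coe_le_coe.2 (le_top : (k : ℕ∞) ≤ ⊤)

/-- a neighbourhood on which the metric is of Kerr-Schild form -/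
lemma ks0 {lam : E 3 → ℝ} {V : E 4 → ℝ} {p : E 4} (hl : ContDiffAt ℝ ∞ lam (sp p))
    (hV : ContDiffAt ℝ ∞ V p) {P : E 4 → Prop} (hP : ∀ᶠ z in 𝓝 p, P z) :
    ∃ U, p ∈ U ∧ KS0 sg (ksG lam V) (nul lam) V U ∧
      (∀ z ∈ U, ContDiffAt ℝ ((6 : ℕ) : WithTop ℕ∞) lam (sp z)) ∧ ∀ z ∈ U, P z := by
  have h1 : ∀ᶠ z in 𝓝 (sp p), ContDiffAt ℝ ((6 : ℕ) : WithTop ℕ∞) lam z :=
    (hl.of_le (nat_le_smooth 6)).eventually (by simp)
  have h2 : ∀ᶠ z in 𝓝 p, ContDiffAt ℝ ((6 : ℕ) : WithTop ℕ∞) lam (sp z) :=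
    sp_cont.continuousAt.eventually h1
  have h3 : ∀ᶠ z in 𝓝 p, ContDiffAt ℝ ((6 : ℕ) : WithTop ℕ∞) V z :=
    (hV.of_le (nat_le_smooth 6)).eventually (by simp)
  obtain ⟨U, hU, hUo, hpU⟩ := _root_.eventually_nhds_iff.1 ((h2.and h3).and hP)
  refine ⟨U, hpU, ⟨hUo, ?_, ?_, ?_, ?_⟩, fun z hz => (hU z hz).1.1, fun z hz => (hU z hz).2⟩
  · intro a; unfold sg; split_ifs <;> norm_num
  · intro z hz; exact nul_contDiffAt (hU z hz).1.1
  · intro z hz; exact (hU z hz).1.2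
  · intro z _ a b; unfold ksG sg; rw [mul_assoc]

/-- second derivatives of `nul lam` -/
lemma spd2_nul {lam : E 3 → ℝ} {p : E 4} (h : ContDiffAt ℝ ∞ lam (sp p)) (a b : Fin 4) :
    Stmt.pd a (Stmt.pd b (nul lam)) p =
      (Fin.cons (fun _ => 0) fun i =>
        (Fin.cons 0 fun j => H353.hs lam i j (sp p) : Fin 4 → ℝ) : Fin 4 → Fin 4 → ℝ) a b := by
  have h1 : ∀ᶠ z in 𝓝 (sp p), DifferentiableAt ℝ lam z := by
    have h2 : ∀ᶠ z in 𝓝 (sp p), ContDiffAt ℝ ((1 : ℕ) : WithTop ℕ∞) lam z :=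
      (h.of_le (nat_le_smooth 1)).eventually (by simp)
    exact h2.mono fun z hz => hz.differentiableAt (by simp)
  have h3 : ∀ᶠ z in 𝓝 p, DifferentiableAt ℝ lam (sp z) := sp_cont.continuousAt.eventually h1
  refine Fin.cases ?_ (fun j => ?_) b
  · have h4 : Stmt.pd 0 (nul lam) =ᶠ[𝓝 p] fun _ => 1 := h3.mono fun z hz => spd_nul hz 0
    rw [pd_congrS h4 a]
    have h5 : Stmt.pd a (fun _ : E 4 => (1 : ℝ)) p = 0 := (T2.HP.const a 1 p).pd
    rw [h5]
    refine Fin.cases rfl (fun i => rfl) a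
  · have h4 : Stmt.pd j.succ (nul lam) =ᶠ[𝓝 p] fun z => pd j lam (sp z) :=
      h3.mono fun z hz => spd_nul hz j.succ
    rw [pd_congrS h4 a]
    refine Fin.cases ?_ (fun i => ?_) a
    · exact spd_zero (pd j lam) p
    · rw [spd_succ (pd j lam) p i]
      have h6 : ContDiffAt ℝ ((1 : ℕ) : WithTop ℕ∞) (fderiv ℝ lam) (sp p) :=
        (h.of_le (nat_le_smooth 2)).fderiv_right
          (by norm_cast)
      have h7 : DifferentiableAt ℝ (pd j lam) (sp p) :=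
        (h6.clm_apply contDiffAt_const).differentiableAt (by simp)
      rw [Bridge.pd_eq h7]
      rfl

lemma sg_w (f : Fin 3 → ℝ) (a : Fin 4) :
    sg a * (Fin.cons 1 f : Fin 4 → ℝ) a = (Fin.cons (-1) f : Fin 4 → ℝ) a := by
  refine Fin.cases ?_ (fun i => ?_) a
  · rw [sg0]; simp
  · rw [sgs]; simp

lemma sg_dV (F : Fin 4 → ℝ) (a : Fin 4) :
    sg a * F a = (Fin.cons (- F 0) fun i : Fin 3 => F i.succ : Fin 4 → ℝ) a := by
  refine Fin.cases ?_ (fun i => ?_) a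
  · rw [sg0]; simp
  · rw [sgs]; simp

/-- the gradient of `nul lam` is null -/
lemma null_of {lam : E 3 → ℝ} {p : E 4} (hl : DifferentiableAt ℝ lam (sp p))
    (hg : ∑ i, pd i lam (sp p) ^ 2 = 1) :
    ∑ a, sg a * (Stmt.pd a (nul lam) p * Stmt.pd a (nul lam) p) = 0 := by
  simp only [spd_nul hl]
  rw [Fin.sum_univ_succ, sg0]
  simp only [sgs, Fin.cons_zero, Fin.cons_succ, one_mul, ← pow_two, hg]
  norm_num

end X1

open X1 in
/-- closed form of the Christoffel symbols of the Kerr-Schild metric -/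
theorem chr_ksG {lam : E 3 → ℝ} {V : E 4 → ℝ} {p : E 4} (hl : ContDiffAt ℝ ∞ lam (sp p))
    (hg : ∑ i, pd i lam (sp p) ^ 2 = 1)
    (_hg' : ∀ i, ∑ j, H353.hs lam i j (sp p) * pd j lam (sp p) = 0)
    (hV : ContDiffAt ℝ ∞ V p) (a b c : Fin 4) :
    let w : Fin 4 → ℝ := Fin.cons 1 fun i => pd i lam (sp p)
    let k : Fin 4 → ℝ := Fin.cons (-1) fun i => pd i lam (sp p)
    let h : Fin 4 → Fin 4 → ℝ := Fin.cons (fun _ => 0) fun i =>
      (Fin.cons 0 fun j => H353.hs lam i j (sp p) : Fin 4 → ℝ)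
    let dV : Fin 4 → ℝ := fun a => pd a V p
    let uV : Fin 4 → ℝ := Fin.cons (- pd 0 V p) fun i : Fin 3 => pd i.succ V p
    let kV : ℝ := ∑ a, k a * dV a
    Stmt.chr (ksG lam V) a b c p = (dV b * k a * w c + dV c * k a * w b - uV a * w b * w c) / 2 +
      V p * kV * k a * w b * w c / 2 + V p * k a * h b c := by
  intro w k h dV uV kV
  obtain ⟨U, hpU, hK, -, -⟩ := ks0 hl hV (P := fun _ => True) (Eventually.of_forall fun _ => trivial)
  have hl1 : DifferentiableAt ℝ lam (sp p) :=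
    (hl.of_le (nat_le_smooth 1)).differentiableAt (by simp)
  have hV1 : DifferentiableAt ℝ V p :=
    (hV.of_le (nat_le_smooth 1)).differentiableAt (by simp)
  have hw : ∀ a, Stmt.pd a (nul lam) p = w a := spd_nul hl1
  have hh : ∀ a b, Stmt.pd a (Stmt.pd b (nul lam)) p = h a b := spd2_nul hl
  have hd : ∀ a, Stmt.pd a V p = dV a := fun a => Bridge.pd_eq hV1 a
  have hk : ∀ a, sg a * w a = k a := sg_w _
  have hu : ∀ a, sg a * dV a = uV a := sg_dV dV
  have hVk : Vk sg (nul lam) V p = kV := by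
    unfold Vk
    refine Finset.sum_congr rfl fun a _ => ?_
    rw [hw, hd, ← hk]; ring
  rw [hK.chr_eq hpU (null_of hl1 hg)]
  unfold Mt
  rw [hVk, hw, hw, hw, hh, hd, hd, hd, hk, hu]
  ring

end Vale.Agent.P366.KS
end
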