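import Vale.Agent.P366.H353.Basic

/-! Linear combinations of test functions. -/

open MeasureTheory Metric Filter Topology Set
open scoped ContDiff

noncomputable section
namespace Vale.Agent.P366.H896

open Vale.Agent.P366 (sphI sphM pd E)
open Vale.Agent.P366.H353

lemma pd_lin {f g : E 3 → ℝ} (hf : Sm f) (hg : Sm g) (a b : ℝ) {x : E 3} (hx : x ≠ 0)
    (i : Fin 3) : pd i (fun y => a * f y + b * g y) x = a * pd i f x + b * pd i g x := by
  rw [pd_add' ((Sm.const a).mul hf) ((Sm.const b).mul hg) hx, pd_cmul' hf a hx, pd_cmul' hg b hx]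

lemma hs_lin {f g : E 3 → ℝ} (hf : Sm f) (hg : Sm g) (a b : ℝ) {x : E 3} (hx : x ≠ 0)
    (i j : Fin 3) :
    hs (fun y => a * f y + b * g y) i j x = a * hs f i j x + b * hs g i j x := by
  unfold hs
  rw [pd_congr' (fun y hy => pd_lin hf hg a b hy j) hx]
  exact pd_lin (hf.pd j) (hg.pd j) a b hx i

lemma lap_lin {f g : E 3 → ℝ} (hf : Sm f) (hg : Sm g) (a b : ℝ) {x : E 3} (hx : x ≠ 0) :
    lap (fun y => a * f y + b * g y) x = a * lap f x + b * lap g x := by
  unfold lap
  simp only [hs_lin hf hg a b hx, Finset.sum_add_distrib, Finset.mul_sum]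

lemma Q_lin {f g : E 3 → ℝ} (hf : Q f) (hg : Q g) (a b : ℝ) :
    Q (fun y => a * f y + b * g y) where
  sm := ((Sm.const a).mul hf.sm).add ((Sm.const b).mul hg.sm)
  hom := (hf.hom.cmul a).add (hg.hom.cmul b)

lemma Q_const (c : ℝ) : Q (fun _ => c) := ⟨Sm.const c, Hom.const c⟩

lemma pd_const' (c : ℝ) (i : Fin 3) : pd i (fun _ : E 3 => c) = fun _ => 0 := by
  funext x; exact pd_const c x i

lemma lap_const (c : ℝ) (x : E 3) : lap (fun _ => c) x = 0 := by
  unfold lap hs
  simp [pd_const', pd_const]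

/-- The integral of the Laplacian vanishes. -/
lemma S2_lap {q : E 3 → ℝ} (hq : Q q) : S2 (lap q) = 0 := by
  have h1 := S2_div (F := fun i => pd i q) (fun i => hq.sm.pd i) (fun i => hq.hom.pd hq.sm i)
  have h2 : S2 (fun x => ∑ i, pd i q x * x i) = 0 := by
    rw [S2_congr (h := fun _ => 0) (fun x hx => ?_), S2_const, mul_zero]
    have h3 := hq.hom.euler hq.sm (ne_zero_of_one hx)
    simp only [Int.cast_zero, zero_mul] at h3
    rw [← h3]
    exact Finset.sum_congr rfl fun i _ => mul_comm _ _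
  rw [h2, mul_zero] at h1
  exact h1

end Vale.Agent.P366.H896
end
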