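import Vale.Agent.P366.H896.Poly
import Vale.Agent.P366.H896.Lin

/-! Density of the Laplacians of smooth functions in the functions of mean zero. -/

open MeasureTheory Metric Filter Topology Set
open scoped ContDiff

noncomputable section
namespace Vale.Agent.P366.H896

open Vale.Agent.P366 (sphI sphM pd E Nc)
open Vale.Agent.P366.H353

/-- `P` is a Laplacian up to a constant, on the unit sphere. -/
def Good (P : MvPolynomial (Fin 3) ℝ) : Prop :=
  ∃ (q : E 3 → ℝ) (c : ℝ), Q q ∧ ∀ x : E 3, ‖x‖ = 1 → lap q x = ev P x - c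

lemma Good.add {P R : MvPolynomial (Fin 3) ℝ} (hP : Good P) (hR : Good R) : Good (P + R) := by
  obtain ⟨q, c, hq, h⟩ := hP
  obtain ⟨q', c', hq', h'⟩ := hR
  refine ⟨fun x => 1 * q x + 1 * q' x, c + c', Q_lin hq hq' 1 1, fun x hx => ?_⟩
  rw [lap_lin hq.sm hq'.sm 1 1 (ne_zero_of_one hx), h x hx, h' x hx, ev_add]
  ring

lemma Good.zero : Good 0 :=
  ⟨fun _ => 0, 0, Q_const 0, fun x _ => by rw [lap_const]; simp [ev]⟩

lemma Good.sum {ι : Type*} (s : Finset ι) {P : ι → MvPolynomial (Fin 3) ℝ}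
    (hP : ∀ a ∈ s, Good (P a)) : Good (∑ a ∈ s, P a) :=
  Finset.sum_induction P Good (fun _ _ => Good.add) Good.zero hP

lemma good_hom (k : ℕ) : ∀ P : MvPolynomial (Fin 3) ℝ, P.IsHomogeneous k → Good P := by
  induction k using Nat.strong_induction_on with
  | _ k ih =>
    intro P hP
    rcases Nat.eq_zero_or_pos k with rfl | hk
    · have h1 : P.totalDegree = 0 := Nat.le_zero.mp hP.totalDegree_le
      rw [MvPolynomial.totalDegree_eq_zero_iff_eq_C] at h1
      rw [h1]
      refine ⟨fun _ => 0, MvPolynomial.coeff 0 P, Q_const 0, fun x _ => ?_⟩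
      rw [lap_const, ev_C]
      exact (sub_self _).symm
    · set L : MvPolynomial (Fin 3) ℝ := ∑ i, MvPolynomial.pderiv i (MvPolynomial.pderiv i P)
        with hL
      have h1 : L.IsHomogeneous (k - 1 - 1) := by
        refine MvPolynomial.IsHomogeneous.sum _ _ _ fun i _ => ?_
        exact (hP.pderiv).pderiv
      obtain ⟨q, c, hq, h⟩ := ih (k - 1 - 1) (by omega) L h1
      have hk' : (k : ℝ) * (k + 1) ≠ 0 := by positivity
      refine ⟨fun x => ((k : ℝ) * (k + 1))⁻¹ * q x + (-((k : ℝ) * (k + 1))⁻¹) * qk P k x,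
        ((k : ℝ) * (k + 1))⁻¹ * c, Q_lin hq (qk_Q hP) _ _, fun x hx => ?_⟩
      rw [lap_lin hq.sm (qk_Q hP).sm _ _ (ne_zero_of_one hx), h x hx, lap_qk hP hx, ← hL]
      field_simp
      ring

lemma good_all (P : MvPolynomial (Fin 3) ℝ) : Good P := by
  rw [← MvPolynomial.sum_homogeneousComponent P]
  exact Good.sum _ fun k _ => good_hom k _ (MvPolynomial.homogeneousComponent_isHomogeneous k P)

/-- The coordinate functions on the sphere. -/
def co (i : Fin 3) : C(sphere (0 : E 3) 1, ℝ) :=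
  ⟨fun θ => (θ : E 3) i, (EuclideanSpace.proj (𝕜 := ℝ) i).continuous.comp continuous_subtype_val⟩

lemma aeval_co (P : MvPolynomial (Fin 3) ℝ) (θ : sphere (0 : E 3) 1) :
    (MvPolynomial.aeval co P : C(sphere (0 : E 3) 1, ℝ)) θ = ev P θ := by
  induction P using MvPolynomial.induction_on with
  | C c => rw [ev_C]; simp
  | add P R hP hR => rw [ev_add, map_add, ContinuousMap.add_apply, hP, hR]
  | mul_X P j hP =>
    rw [ev_mul_X, map_mul, ContinuousMap.mul_apply, hP, MvPolynomial.aeval_X]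
    rfl

/-- Weierstrass approximation on the sphere. -/
lemma weier {f : E 3 → ℝ} (hf : ContinuousOn f (sphere 0 1)) {δ : ℝ} (hδ : 0 < δ) :
    ∃ P : MvPolynomial (Fin 3) ℝ, ∀ x : E 3, ‖x‖ = 1 → |ev P x - f x| < δ := by
  have h1 : Continuous (fun θ : sphere (0 : E 3) 1 => f θ) := by
    rw [← continuousOn_univ]
    exact hf.comp continuous_subtype_val.continuousOn fun θ _ => θ.2
  obtain ⟨⟨g, hg⟩, hg2⟩ :=
    ContinuousMap.exists_mem_subalgebra_near_continuousMap_of_separatesPoints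
      (MvPolynomial.aeval (R := ℝ) co).range (by
        intro θ θ' hne
        have : ∃ i, (θ : E 3) i ≠ (θ' : E 3) i := by
          by_contra hcon
          push Not at hcon
          exact hne (Subtype.ext (by ext i; exact hcon i))
        obtain ⟨i, hi⟩ := this
        refine ⟨co i, ⟨co i, ⟨MvPolynomial.X i, ?_⟩, rfl⟩, hi⟩
        simp) ⟨_, h1⟩ δ hδ
  obtain ⟨P, rfl⟩ := hg
  refine ⟨P, fun x hx => ?_⟩
  have hx' : x ∈ sphere (0 : E 3) 1 := by simpa using hx
  have h2 := (ContinuousMap.norm_coe_le_norm _ (⟨x, hx'⟩ : sphere (0 : E 3) 1)).trans_lt hg2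
  simpa [aeval_co] using h2

end Vale.Agent.P366.H896

namespace Vale.Agent.P366.H353

open Vale.Agent.P366 (sphI sphM pd E)
open Vale.Agent.P366.H896

/-- Uniform density of the Laplacians. -/
theorem dens_lap_unif {f : E 3 → ℝ} (hf : ContinuousOn f (sphere 0 1)) (h0 : S2 f = 0) {δ : ℝ}
    (hδ : 0 < δ) : ∃ q, Q q ∧ ∀ x : E 3, ‖x‖ = 1 → |lap q x - f x| ≤ δ := by
  obtain ⟨P, hP⟩ := weier hf (half_pos hδ)
  obtain ⟨q, c, hq, h⟩ := good_all P
  refine ⟨q, hq, fun x hx => ?_⟩
  have hev : ContinuousOn (ev P) (sphere 0 1) := (ev_contDiff P).continuous.continuousOn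
  have hcc : S2 (fun x => ev P x - f x) = 4 * Real.pi * c := by
    rw [S2_sub hev hf, h0, sub_zero]
    have h1 := S2_lap hq
    rw [S2_congr (h := fun x => ev P x - c) h, S2_sub hev continuousOn_const, S2_const] at h1
    linarith
  have hpi : 0 < 4 * Real.pi := by positivity
  have h1 : 4 * Real.pi * c ≤ 4 * Real.pi * (δ / 2) := by
    rw [← hcc, ← S2_const]
    exact S2_mono (hev.sub hf) continuousOn_const fun x hx => (abs_lt.mp (hP x hx)).2.le
  have h2 : 4 * Real.pi * (-(δ / 2)) ≤ 4 * Real.pi * c := by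
    rw [← hcc, ← S2_const]
    exact S2_mono continuousOn_const (hev.sub hf) fun x hx => (abs_lt.mp (hP x hx)).1.le
  have h3 := le_of_mul_le_mul_left h1 hpi
  have h4 := le_of_mul_le_mul_left h2 hpi
  have h5 := abs_lt.mp (hP x hx)
  rw [h x hx, abs_le]
  constructor <;> linarith [h5.1, h5.2]

theorem dens_lap {f : E 3 → ℝ} (hf : ContinuousOn f (sphere 0 1)) (h0 : S2 f = 0) {ε : ℝ}
    (hε : 0 < ε) : ∃ q, Q q ∧ S2 (fun x => (lap q x - f x) ^ 2) < ε := by
  have hpi : 0 < 4 * Real.pi := by positivity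
  set δ : ℝ := min 1 (ε / (8 * Real.pi)) with hδ
  have hδ0 : 0 < δ := lt_min one_pos (by positivity)
  obtain ⟨q, hq, h⟩ := dens_lap_unif hf h0 hδ0
  refine ⟨q, hq, ?_⟩
  have h1 : S2 (fun x => (lap q x - f x) ^ 2) ≤ 4 * Real.pi * δ := by
    rw [← S2_const]
    refine S2_mono ((hq.sm.lap.contOn.sub hf).pow 2) continuousOn_const fun x hx => ?_
    have h2 := h x hx
    have h3 : (lap q x - f x) ^ 2 ≤ δ ^ 2 := by
      rw [← sq_abs]; exact pow_le_pow_left₀ (abs_nonneg _) h2 2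
    have h4 : δ ≤ 1 := min_le_left _ _
    nlinarith
  have h2 : δ ≤ ε / (8 * Real.pi) := min_le_right _ _
  calc _ ≤ 4 * Real.pi * δ := h1
    _ ≤ 4 * Real.pi * (ε / (8 * Real.pi)) := mul_le_mul_of_nonneg_left h2 hpi.le
    _ = ε / 2 := by field_simp; ring
    _ < ε := half_lt_self hε

end Vale.Agent.P366.H353
end
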