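import Vale.Agent.P366.H896.F1

/-! The Poincaré inequality on the unit sphere. -/

open MeasureTheory Metric Filter Topology Set
open scoped ContDiff

noncomputable section
namespace Vale.Agent.P366.H896

open Vale.Agent.P366 (sphI sphM pd E)
open Vale.Agent.P366.H353

lemma euler0 {q : E 3 → ℝ} (hq : Q q) {x : E 3} (hx : x ≠ 0) : ∑ i, x i * pd i q x = 0 := by
  have h3 := hq.hom.euler hq.sm hx
  simpa only [Int.cast_zero, zero_mul] using h3

lemma tr_Zb {q : E 3 → ℝ} (hq : Q q) {x : E 3} (hx : x ≠ 0) : tr3 (Zb q x) = lap q x := by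
  have h := euler0 hq hx
  unfold tr3 Zb lap
  simp only [Finset.sum_add_distrib]
  have h' : ∑ i, pd i q x * x i = 0 := by
    rw [← h]; exact Finset.sum_congr rfl fun i _ => mul_comm _ _
  rw [h, h']; ring

lemma det2_le (M : Fin 3 → Fin 3 → ℝ) : det2 M ≤ tr3 M ^ 2 / 3 := by
  unfold det2 tr3 ip3
  simp only [Fin.sum_univ_three]
  nlinarith [sq_nonneg (M 0 0 - M 1 1), sq_nonneg (M 0 0 - M 2 2), sq_nonneg (M 1 1 - M 2 2),
    sq_nonneg (M 0 1), sq_nonneg (M 0 2), sq_nonneg (M 1 2), sq_nonneg (M 1 0),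
    sq_nonneg (M 2 0), sq_nonneg (M 2 1)]

lemma sm_gg {f q : E 3 → ℝ} (hf : Sm f) (hq : Sm q) : Sm (fun x => ∑ i, pd i f x * pd i q x) :=
  Sm.sum _ fun i => (hf.pd i).mul (hq.pd i)

/-- Green's formula. -/
lemma green {f q : E 3 → ℝ} (hf : Q f) (hq : Q q) :
    S2 (fun x => f x * lap q x) = - S2 (fun x => ∑ i, pd i f x * pd i q x) := by
  have h1 := S2_div (F := fun i x => f x * pd i q x) (k := -1)
    (fun i => hf.sm.mul (hq.sm.pd i)) (fun i => (hf.hom.mul (hq.hom.pd hq.sm i)).cast (by ring))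
  have h2 : S2 (fun x => ∑ i, f x * pd i q x * x i) = 0 := by
    rw [S2_congr (h := fun _ => 0) (fun x hx => ?_), S2_const, mul_zero]
    have h3 := euler0 hq (ne_zero_of_one hx)
    calc ∑ i, f x * pd i q x * x i = f x * ∑ i, x i * pd i q x := by
          rw [Finset.mul_sum]; exact Finset.sum_congr rfl fun i _ => by ring
      _ = 0 := by rw [h3, mul_zero]
  rw [h2, mul_zero] at h1
  have h3 : S2 (fun x => ∑ i, pd i (fun y => f y * pd i q y) x) =
      S2 (fun x => f x * lap q x + ∑ i, pd i f x * pd i q x) := by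
    refine S2_congr fun x hx => ?_
    have hx0 := ne_zero_of_one hx
    unfold lap hs
    rw [Finset.mul_sum, ← Finset.sum_add_distrib]
    exact Finset.sum_congr rfl fun i _ => pd_mul' hf.sm (hq.sm.pd i) hx0 i
  rw [h3, S2_add (hf.sm.mul hq.sm.lap).contOn (sm_gg hf.sm hq.sm).contOn] at h1
  linarith

lemma gsq_le (hb : ∀ {q : E 3 → ℝ}, Q q → S2 (fun x => det2 (Zb q x)) = S2 (gsq q) / 2)
    {q : E 3 → ℝ} (hq : Q q) : S2 (gsq q) ≤ 2 / 3 * S2 (fun x => lap q x ^ 2) := by
  have hdet : S2 (fun x => det2 (Zb q x)) ≤ S2 (fun x => 1 / 3 * lap q x ^ 2) := by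
    refine S2_mono ?_ ((Sm.const _).mul (hq.sm.lap.pow 2)).contOn fun x hx => ?_
    · have hZ : ∀ i j, Sm (fun x => Zb q x i j) := fun i j =>
        ((hq.sm.hs i j).add ((hq.sm.pd i).mul (Sm.coord j))).add ((Sm.coord i).mul (hq.sm.pd j))
      have h1 : Sm (fun x => tr3 (Zb q x)) := Sm.sum _ fun i => hZ i i
      have h2 : Sm (fun x => ip3 (Zb q x) (Zb q x)) :=
        Sm.sum _ fun i => Sm.sum _ fun j => (hZ i j).mul (hZ i j)
      have h3 : Sm (fun x => det2 (Zb q x)) := by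
        refine (((h1.pow 2).sub h2).mul (Sm.const (2⁻¹))).congr fun x _ => ?_
        unfold det2; ring
      exact h3.contOn
    · have h1 := det2_le (Zb q x)
      rw [tr_Zb hq (ne_zero_of_one hx)] at h1
      linarith
  rw [hb hq, S2_cmul] at hdet
  linarith

theorem poincare_of
    (hb : ∀ {q : E 3 → ℝ}, Q q → S2 (fun x => det2 (Zb q x)) = S2 (gsq q) / 2)
    {q : E 3 → ℝ} (hq : Q q) :
    S2 (fun x => (q x - S2 q / (4 * Real.pi)) ^ 2) ≤ S2 (gsq q) := by
  have hpi : 0 < 4 * Real.pi := by positivity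
  set m : ℝ := S2 q / (4 * Real.pi) with hm
  set f : E 3 → ℝ := fun x => q x - m with hf
  have hfQ : Q f := ⟨hq.sm.sub (Sm.const m), hq.hom.sub (Hom.const m)⟩
  have hf0 : S2 f = 0 := by
    rw [hf, S2_sub hq.sm.contOn continuousOn_const, S2_const, hm]
    field_simp
    ring
  have hpdf : ∀ x : E 3, x ≠ 0 → ∀ i, pd i f x = pd i q x := by
    intro x hx i
    rw [hf, pd_sub' hq.sm (Sm.const m) hx, pd_const]; ring
  have hgf : S2 (gsq f) = S2 (gsq q) := by
    refine S2_congr fun x hx => ?_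
    unfold gsq
    simp only [hpdf x (ne_zero_of_one hx)]
  set F : ℝ := S2 (fun x => f x ^ 2) with hF
  have key : ∀ ε : ℝ, 0 < ε → F ≤ S2 (gsq q) + 9 * ε := by
    intro ε hε
    obtain ⟨p, hp, hpe⟩ := dens_lap hfQ.sm.contOn hf0 hε
    set e : ℝ := S2 (fun x => (lap p x - f x) ^ 2) with he
    have sF : Sm (fun x => f x ^ 2) := hfQ.sm.pow 2
    have sE : Sm (fun x => (lap p x - f x) ^ 2) := (hp.sm.lap.sub hfQ.sm).pow 2
    have sfl : Sm (fun x => f x * lap p x) := hfQ.sm.mul hp.sm.lap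
    -- (1)
    have h1 : F ≤ 1 / 10 * F + 5 / 2 * e + S2 (fun x => f x * lap p x) := by
      have : F ≤ S2 (fun x => 1 / 10 * f x ^ 2 + 5 / 2 * (lap p x - f x) ^ 2 + f x * lap p x) := by
        refine S2_mono sF.contOn
          ((((Sm.const _).mul sF).add ((Sm.const _).mul sE)).add sfl).contOn fun x _ => ?_
        nlinarith [sq_nonneg (f x + 5 * (lap p x - f x))]
      rw [S2_add (((Sm.const _).mul sF).add ((Sm.const _).mul sE)).contOn sfl.contOn,
        S2_add ((Sm.const _).mul sF).contOn ((Sm.const _).mul sE).contOn, S2_cmul, S2_cmul] at this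
      exact this
    -- (2)
    have h2 : S2 (fun x => f x * lap p x) ≤ 1 / 2 * S2 (gsq q) + 1 / 2 * S2 (gsq p) := by
      rw [green hfQ hp, ← S2_neg, ← hgf, ← S2_cmul, ← S2_cmul,
        ← S2_add ((Sm.const _).mul hfQ.sm.gsq).contOn ((Sm.const _).mul hp.sm.gsq).contOn]
      refine S2_mono (sm_gg hfQ.sm hp.sm).neg.contOn
        (((Sm.const _).mul hfQ.sm.gsq).add ((Sm.const _).mul hp.sm.gsq)).contOn fun x _ => ?_
      unfold gsq
      rw [Finset.mul_sum, Finset.mul_sum, ← Finset.sum_add_distrib, ← Finset.sum_neg_distrib]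
      refine Finset.sum_le_sum fun i _ => ?_
      nlinarith [sq_nonneg (pd i f x + pd i p x)]
    -- (3)
    have h3 : S2 (fun x => lap p x ^ 2) ≤ 6 / 5 * F + 6 * e := by
      rw [hF, he, ← S2_cmul, ← S2_cmul,
        ← S2_add ((Sm.const _).mul sF).contOn ((Sm.const _).mul sE).contOn]
      refine S2_mono (hp.sm.lap.pow 2).contOn
        (((Sm.const _).mul sF).add ((Sm.const _).mul sE)).contOn fun x _ => ?_
      nlinarith [sq_nonneg (f x - 5 * (lap p x - f x))]
    have h4 := gsq_le hb hp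
    linarith
  refine le_of_forall_pos_le_add fun ε hε => ?_
  have := key (ε / 9) (by positivity)
  linarith

end Vale.Agent.P366.H896
end
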