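import Vale.Agent.P366.H353.Basic

/-! Polynomials on the sphere: the Laplacian of the extension of degree zero. -/

open MeasureTheory Metric Filter Topology Set
open scoped ContDiff

noncomputable section
namespace Vale.Agent.P366.H896

open Vale.Agent.P366 (sphI sphM pd E Nc)
open Vale.Agent.P366.H353

/-- Evaluation of a polynomial. -/
def ev (P : MvPolynomial (Fin 3) ℝ) (x : E 3) : ℝ := MvPolynomial.eval (fun i => x i) P

lemma ev_C (c : ℝ) : ev (MvPolynomial.C c) = fun _ => c := by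
  funext x; simp [ev]

lemma ev_add (P R : MvPolynomial (Fin 3) ℝ) : ev (P + R) = fun x => ev P x + ev R x := by
  funext x; simp [ev]

lemma ev_sum {ι : Type*} (s : Finset ι) (P : ι → MvPolynomial (Fin 3) ℝ) (x : E 3) :
    ev (∑ a ∈ s, P a) x = ∑ a ∈ s, ev (P a) x := by
  simp [ev, map_sum]

lemma ev_mul_X (P : MvPolynomial (Fin 3) ℝ) (j : Fin 3) :
    ev (P * MvPolynomial.X j) = fun x => ev P x * x j := by
  funext x; simp [ev]

lemma ev_contDiff (P : MvPolynomial (Fin 3) ℝ) : ContDiff ℝ ∞ (ev P) := by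
  induction P using MvPolynomial.induction_on with
  | C c => rw [ev_C]; exact contDiff_const
  | add P R hP hR => rw [ev_add]; exact hP.add hR
  | mul_X P j hP =>
    rw [ev_mul_X]
    exact hP.mul (EuclideanSpace.proj (𝕜 := ℝ) j).contDiff

lemma ev_diff (P : MvPolynomial (Fin 3) ℝ) (x : E 3) : DifferentiableAt ℝ (ev P) x :=
  (ev_contDiff P).differentiable (by norm_num) x

lemma coord_diff (j : Fin 3) (x : E 3) : DifferentiableAt ℝ (fun y : E 3 => y j) x :=
  (EuclideanSpace.proj (𝕜 := ℝ) j).differentiableAt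

lemma pd_ev (P : MvPolynomial (Fin 3) ℝ) (i : Fin 3) (x : E 3) :
    pd i (ev P) x = ev (MvPolynomial.pderiv i P) x := by
  induction P using MvPolynomial.induction_on with
  | C c => rw [ev_C, pd_const]; simp [ev]
  | add P R hP hR =>
    rw [ev_add, pd_add (ev_diff P x) (ev_diff R x), hP, hR, map_add, ev_add]
  | mul_X P j hP =>
    rw [ev_mul_X, pd_mul (ev_diff P x) (coord_diff j x), hP, pd_coord]
    simp only [ev, Derivation.leibniz, MvPolynomial.pderiv_X, smul_eq_mul, map_add, map_mul,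
      MvPolynomial.eval_X, Pi.single_apply]
    split_ifs with h1 h2 h2
    · simp; ring
    · exact absurd h1.symm (by simpa using h2)
    · exact absurd h2.symm (by simpa using h1)
    · simp; ring

lemma ev_smul {P : MvPolynomial (Fin 3) ℝ} {k : ℕ} (hP : P.IsHomogeneous k) (r : ℝ) (x : E 3) :
    ev P (r • x) = r ^ k * ev P x := by
  unfold ev
  rw [MvPolynomial.eval_eq', MvPolynomial.eval_eq', Finset.mul_sum]
  refine Finset.sum_congr rfl fun d hd => ?_
  have h1 : k = ∑ i, d i := by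
    have := hP.degree_eq_sum_deg_support hd
    rw [this]
    refine Finset.sum_subset (Finset.subset_univ _) fun i _ hi => ?_
    simpa using hi
  have h2 : ∏ i, ((r • x) i) ^ (d i) = r ^ k * ∏ i, (x i) ^ (d i) := by
    rw [h1, ← Finset.prod_pow_eq_pow_sum, ← Finset.prod_mul_distrib]
    refine Finset.prod_congr rfl fun i _ => ?_
    simp [mul_pow]
  rw [h2]; ring

lemma ev_euler {P : MvPolynomial (Fin 3) ℝ} {k : ℕ} (hP : P.IsHomogeneous k) (x : E 3) :
    ∑ i, x i * ev (MvPolynomial.pderiv i P) x = k * ev P x := by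
  have h := congrArg (fun R => ev R x) hP.sum_X_mul_pderiv
  simp only [ev, map_sum, map_mul, MvPolynomial.eval_X, nsmul_eq_mul, map_natCast] at h
  simpa only [ev] using h

/-! ### powers of the norm -/

lemma sum_sq {x : E 3} : ∑ i, x i * x i = ‖x‖ ^ 2 := by
  rw [EuclideanSpace.norm_sq_eq]
  refine Finset.sum_congr rfl fun i _ => ?_
  rw [Real.norm_eq_abs, sq_abs]; ring

lemma nz_smooth (m : ℤ) {x : E 3} (hx : x ≠ 0) : ContDiffAt ℝ ∞ (fun y : E 3 => ‖y‖ ^ m) x := by
  have h1 : ContDiffAt ℝ ∞ (fun y : E 3 => ‖y‖) x := contDiffAt_norm ℝ hx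
  have hn : ‖x‖ ≠ 0 := norm_ne_zero_iff.mpr hx
  rcases m with m | m
  · simpa using h1.pow m
  · simp only [zpow_negSucc]
    exact (h1.pow (m + 1)).inv (pow_ne_zero _ hn)

lemma nz_diff (m : ℤ) {x : E 3} (hx : x ≠ 0) : DifferentiableAt ℝ (fun y : E 3 => ‖y‖ ^ m) x :=
  (nz_smooth m hx).differentiableAt (by norm_num)

lemma pd_nz (m : ℤ) {x : E 3} (hx : x ≠ 0) (i : Fin 3) :
    pd i (fun y : E 3 => ‖y‖ ^ m) x = m * ‖x‖ ^ (m - 2) * x i := by
  have hn : ‖x‖ ≠ 0 := norm_ne_zero_iff.mpr hx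
  have h1 := pd_radial (f := fun t : ℝ => t ^ m) hx (differentiableAt_zpow.mpr (Or.inl hn)) i
  rw [h1, deriv_zpow]
  unfold Nc
  rw [show m - 1 = (m - 2) + 1 by ring, zpow_add_one₀ hn]
  field_simp

/-- The extension of degree zero of a homogeneous polynomial. -/
def qk (P : MvPolynomial (Fin 3) ℝ) (k : ℕ) (x : E 3) : ℝ := ev P x * ‖x‖ ^ (-(k : ℤ))

lemma qk_Q {P : MvPolynomial (Fin 3) ℝ} {k : ℕ} (hP : P.IsHomogeneous k) : Q (qk P k) where
  sm := fun x hx => (ev_contDiff P).contDiffAt.mul (nz_smooth _ hx)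
  hom := by
    intro x hx r hr
    unfold qk
    rw [ev_smul hP, norm_smul, Real.norm_eq_abs, abs_of_pos hr, mul_zpow, zpow_zero, one_mul,
      zpow_neg, zpow_natCast]
    have : r ^ k ≠ 0 := pow_ne_zero _ hr.ne'
    field_simp

lemma pd_qk (P : MvPolynomial (Fin 3) ℝ) (m : ℤ) {x : E 3} (hx : x ≠ 0) (i : Fin 3) :
    pd i (fun y => ev P y * ‖y‖ ^ m) x =
      ev (MvPolynomial.pderiv i P) x * ‖x‖ ^ m + ev P x * (m * ‖x‖ ^ (m - 2) * x i) := by
  rw [pd_mul (ev_diff P x) (nz_diff m hx), pd_ev, pd_nz m hx]; ring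

lemma hs_qk (P : MvPolynomial (Fin 3) ℝ) (m : ℤ) {x : E 3} (hx : ‖x‖ = 1) (i : Fin 3) :
    hs (fun y => ev P y * ‖y‖ ^ m) i i x =
      ev (MvPolynomial.pderiv i (MvPolynomial.pderiv i P)) x +
        2 * m * (x i * ev (MvPolynomial.pderiv i P) x) +
        ev P x * (m * (m - 2) * (x i * x i) + m) := by
  have hx0 : x ≠ 0 := by rintro rfl; simp at hx
  have h1 : pd i (fun y => ev P y * ‖y‖ ^ m) =ᶠ[𝓝 x] fun y =>
      ev (MvPolynomial.pderiv i P) y * ‖y‖ ^ m +
        ((m : ℝ) * (ev P y * ‖y‖ ^ (m - 2))) * y i := by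
    filter_upwards [isOpen_ne.mem_nhds hx0] with y hy
    rw [pd_qk P m hy]; ring
  have d1 : DifferentiableAt ℝ (fun y => ev (MvPolynomial.pderiv i P) y * ‖y‖ ^ m) x :=
    (ev_diff _ x).mul (nz_diff m hx0)
  have d2 : DifferentiableAt ℝ (fun y => ev P y * ‖y‖ ^ (m - 2)) x :=
    (ev_diff _ x).mul (nz_diff _ hx0)
  have d3 : DifferentiableAt ℝ (fun y => (m : ℝ) * (ev P y * ‖y‖ ^ (m - 2))) x :=
    (differentiableAt_const _).mul d2
  have d4 : DifferentiableAt ℝ (fun y => (m : ℝ) * (ev P y * ‖y‖ ^ (m - 2)) * y i) x :=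
    d3.mul (coord_diff i x)
  unfold hs
  rw [pd_congr h1, pd_add d1 d4, pd_mul d3 (coord_diff i x),
    pd_mul (differentiableAt_const _) d2, pd_qk _ m hx0, pd_qk P (m - 2) hx0, pd_const, pd_coord]
  simp only [hx, one_zpow, if_true]
  push_cast
  ring

lemma lap_qk {P : MvPolynomial (Fin 3) ℝ} {k : ℕ} (hP : P.IsHomogeneous k) {x : E 3}
    (hx : ‖x‖ = 1) :
    lap (qk P k) x = ev (∑ i, MvPolynomial.pderiv i (MvPolynomial.pderiv i P)) x -
      (k : ℝ) * (k + 1) * ev P x := by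
  unfold lap qk
  simp only [hs_qk P _ hx]
  rw [Finset.sum_add_distrib, Finset.sum_add_distrib, ← Finset.mul_sum, ev_euler hP,
    ← Finset.mul_sum, Finset.sum_add_distrib, ← Finset.mul_sum, sum_sq, hx, ev_sum]
  simp only [Finset.sum_const, Finset.card_univ, Fintype.card_fin, nsmul_eq_mul]
  push_cast
  ring

end Vale.Agent.P366.H896
end
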