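import Vale.Agent.P366.T2.Calc
import Mathlib.Analysis.Calculus.FDeriv.Symmetric

/-! The Einstein tensor of a metric of Kerr-Schild form, in every dimension. -/

open MeasureTheory Metric Filter Topology Set
open scoped ContDiff

noncomputable section
namespace Vale.Agent.P366.H896
open Vale.Agent.P366.Stmt Vale.Agent.P366.T2

variable {m : ℕ}

/-- The Ricci tensor of `g`. -/
def ric (g : Field m) (a b : Fin m) (x : E m) : ℝ :=
  ∑ k, (pd k (chr g k a b) x - pd b (chr g k a k) x +
    ∑ l, (chr g k k l x * chr g l a b x - chr g k b l x * chr g l a k x))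

/-- The Einstein tensor of `g`. -/
def ein (g : Field m) (a b : Fin m) (x : E m) : ℝ := ric g a b x - scal g x / 2 * g x a b

lemma scal_ric (g : Field m) (x : E m) : scal g x = ∑ a, ∑ b, up g a b x * ric g a b x := rfl

/-! ### calculus -/

lemma pd_congrS {f h : E m → ℝ} {x : E m} (hfh : f =ᶠ[𝓝 x] h) (i : Fin m) :
    pd i f x = pd i h x := hfh.lineDeriv_eq

lemma pd_eqF {f : E m → ℝ} {x : E m} (hf : DifferentiableAt ℝ f x) (i : Fin m) :
    pd i f x = fderiv ℝ f x (EuclideanSpace.single i 1) := hf.lineDeriv_eq_fderiv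

/-- On the open set `U` the function has continuous derivatives up to order `r`. -/
def CR (r : ℕ) (U : Set (E m)) (f : E m → ℝ) : Prop :=
  ∀ x ∈ U, ContDiffAt ℝ (r : WithTop ℕ∞) f x

/-- On the open set `U` the function is twice continuously differentiable. -/
abbrev CU (U : Set (E m)) (f : E m → ℝ) : Prop := CR 2 U f

section
variable {U : Set (E m)} {f h : E m → ℝ} {r s : ℕ}

lemma CR.le (hf : CR r U f) (h : s ≤ r) : CR s U f := fun x hx =>
  (hf x hx).of_le (by exact_mod_cast h)

lemma CR.diff (hf : CR (r + 1) U f) {x : E m} (hx : x ∈ U) : DifferentiableAt ℝ f x :=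
  (hf x hx).differentiableAt (by simp)

lemma CR.hp (hf : CR (r + 1) U f) {x : E m} (hx : x ∈ U) (i : Fin m) : HP i f (pd i f x) x :=
  HP.of_diff (hf.diff hx)

lemma CR.pd (hU : IsOpen U) (hf : CR (r + 1) U f) (i : Fin m) : CR r U (pd i f) := by
  intro x hx
  have h1 : ContDiffAt ℝ (r : WithTop ℕ∞) (fderiv ℝ f) x :=
    (hf x hx).fderiv_right (by norm_cast)
  have h2 : ContDiffAt ℝ (r : WithTop ℕ∞)
      (fun y => fderiv ℝ f y (EuclideanSpace.single i 1)) x := h1.clm_apply contDiffAt_const
  refine h2.congr_of_eventuallyEq ?_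
  filter_upwards [hU.mem_nhds hx] with y hy
  exact pd_eqF (hf.diff hy) i

lemma CR.const (c : ℝ) : CR r U fun _ => c := fun _ _ => contDiffAt_const

lemma CR.add (hf : CR r U f) (hh : CR r U h) : CR r U fun x => f x + h x :=
  fun x hx => (hf x hx).add (hh x hx)

lemma CR.sub (hf : CR r U f) (hh : CR r U h) : CR r U fun x => f x - h x :=
  fun x hx => (hf x hx).sub (hh x hx)

lemma CR.mul (hf : CR r U f) (hh : CR r U h) : CR r U fun x => f x * h x :=
  fun x hx => (hf x hx).mul (hh x hx)

lemma CR.sum {ι : Type*} (s : Finset ι) {f : ι → E m → ℝ} (hf : ∀ i, CR r U (f i)) :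
    CR r U fun x => ∑ i ∈ s, f i x := fun x hx => ContDiffAt.sum fun i _ => hf i x hx

lemma pd_comm (hU : IsOpen U) (hf : CU U f) {x : E m} (hx : x ∈ U) (i j : Fin m) :
    pd i (pd j f) x = pd j (pd i f) x := by
  have e : ∀ j : Fin m, pd j f =ᶠ[𝓝 x] fun y => fderiv ℝ f y (EuclideanSpace.single j 1) := by
    intro j
    filter_upwards [hU.mem_nhds hx] with y hy
    exact pd_eqF (hf.diff hy) j
  have hd : DifferentiableAt ℝ (fderiv ℝ f) x :=
    ((hf x hx).fderiv_right (m := 1) (by norm_cast)).differentiableAt (by simp)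
  have e2 : ∀ i j : Fin m, pd i (pd j f) x =
      fderiv ℝ (fderiv ℝ f) x (EuclideanSpace.single i 1) (EuclideanSpace.single j 1) := by
    intro i j
    rw [pd_congrS (e j)]
    have h1 : HasFDerivAt (fun y => fderiv ℝ f y (EuclideanSpace.single j 1)) _ x :=
      hd.hasFDerivAt.clm_apply (hasFDerivAt_const _ _)
    have h2 := h1.hasLineDerivAt (EuclideanSpace.single i (1 : ℝ))
    show lineDeriv ℝ _ x (EuclideanSpace.single i (1 : ℝ)) = _
    rw [h2.lineDeriv]
    simp
  rw [e2 i j, e2 j i]
  have hsym : IsSymmSndFDerivAt ℝ f x := (hf x hx).isSymmSndFDerivAt (by simp)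
  exact hsym.eq _ _

lemma pd_congrU (hU : IsOpen U) {x : E m} (hx : x ∈ U) (e : ∀ y ∈ U, f y = h y) (i : Fin m) :
    pd i f x = pd i h x := pd_congrS (by filter_upwards [hU.mem_nhds hx] with y hy using e y hy) i

lemma hp_congrU (hU : IsOpen U) {x : E m} (hx : x ∈ U) (e : ∀ y ∈ U, h y = f y) {i : Fin m}
    {d : ℝ} (hf : HP i f d x) : HP i h d x :=
  hf.congr (by filter_upwards [hU.mem_nhds hx] with y hy using e y hy)

end

/-- `g = η + V dw ⊗ dw` on the open set `U`, where `η` is diagonal with entries `e a = ± 1`. -/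
structure KS0 (e : Fin m → ℝ) (g : Field m) (w V : E m → ℝ) (U : Set (E m)) : Prop where
  op : IsOpen U
  he : ∀ a, e a * e a = 1
  sw : CR 6 U w
  sV : CR 6 U V
  hg : ∀ x ∈ U, ∀ a b, g x a b = (if a = b then e a else 0) + V x * (pd a w x * pd b w x)

/-- Moreover `dw` is null. -/
structure KSg (e : Fin m → ℝ) (g : Field m) (w V : E m → ℝ) (U : Set (E m)) : Prop
    extends KS0 e g w V U where
  null : ∀ x ∈ U, ∑ a, e a * (pd a w x * pd a w x) = 0

namespace KS0

variable {e : Fin m → ℝ} {g : Field m} {w V : E m → ℝ} {U : Set (E m)} (h : KS0 e g w V U)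
include h

lemma sw0 : CU U w := h.sw.le (by norm_num)
lemma sw1' (a : Fin m) : CR 5 U (pd a w) := h.sw.pd h.op a
lemma sw2' (a b : Fin m) : CR 4 U (pd a (pd b w)) := (h.sw1' b).pd h.op a
lemma sV0 : CU U V := h.sV.le (by norm_num)
lemma sV1' (a : Fin m) : CR 5 U (pd a V) := h.sV.pd h.op a
lemma sw1 (a : Fin m) : CU U (pd a w) := (h.sw1' a).le (by norm_num)
lemma sw2 (a b : Fin m) : CU U (pd a (pd b w)) := (h.sw2' a b).le (by norm_num)
lemma sV1 (a : Fin m) : CU U (pd a V) := (h.sV1' a).le (by norm_num)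
lemma sV2 (a b : Fin m) : CU U (pd a (pd b V)) := ((h.sV1' b).pd h.op a).le (by norm_num)

lemma w2 {x : E m} (hx : x ∈ U) (a b : Fin m) : pd a (pd b w) x = pd b (pd a w) x :=
  pd_comm h.op h.sw0 hx a b
lemma v2 {x : E m} (hx : x ∈ U) (a b : Fin m) : pd a (pd b V) x = pd b (pd a V) x :=
  pd_comm h.op h.sV0 hx a b

/-- The inverse metric. -/
lemma up_eq {x : E m} (hx : x ∈ U) (hn : ∑ a, e a * (pd a w x * pd a w x) = 0)
    (a b : Fin m) :
    up g a b x = (if a = b then e a else 0) - V x * ((e a * pd a w x) * (e b * pd b w x)) := by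
  set N : Matrix (Fin m) (Fin m) ℝ := Matrix.of fun a b =>
    (if a = b then e a else 0) - V x * ((e a * pd a w x) * (e b * pd b w x)) with hN
  have h1 : mat g x * N = 1 := by
    ext a c
    rw [Matrix.mul_apply, Matrix.one_apply]
    have e1 : ∀ b, mat g x a b * N b c = (if a = b then e a * N a c else 0) +
        V x * pd a w x * (pd b w x * N b c) := by
      intro b
      show g x a b * _ = _
      rw [h.hg x hx]
      split_ifs with hab
      · subst hab; ring
      · ring
    simp only [e1, Finset.sum_add_distrib, Finset.sum_ite_eq, Finset.mem_univ, if_true,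
      ← Finset.mul_sum]
    have e2 : ∑ b, pd b w x * N b c = e c * pd c w x := by
      have e3 : ∀ b, pd b w x * N b c = (if b = c then e c * pd c w x else 0) -
          V x * (e c * pd c w x) * (e b * (pd b w x * pd b w x)) := by
        intro b
        show pd b w x * ((if b = c then e b else 0) -
          V x * ((e b * pd b w x) * (e c * pd c w x))) = _
        split_ifs with hbc
        · subst hbc; ring
        · ring
      simp only [e3, Finset.sum_sub_distrib, Finset.sum_ite_eq', Finset.mem_univ, if_true,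
        ← Finset.mul_sum, hn]
      ring
    rw [e2]
    show e a * ((if a = c then e a else 0) - V x * ((e a * pd a w x) * (e c * pd c w x))) + _ = _
    have ha := h.he a
    split_ifs with hac
    · subst hac
      linear_combination (1 - V x * pd a w x * (e a * pd a w x)) * ha
    · linear_combination (- V x * pd a w x * (e c * pd c w x)) * ha
  unfold up
  rw [Matrix.inv_eq_right_inv h1]
  rfl

end KS0

namespace KSg

variable {e : Fin m → ℝ} {g : Field m} {w V : E m → ℝ} {U : Set (E m)} (h : KSg e g w V U)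
include h

/-- first derivative of the null condition -/
lemma null1 {x : E m} (hx : x ∈ U) (b : Fin m) :
    ∑ a, e a * (pd a w x * pd b (pd a w) x) = 0 := by
  have h1 : HP b (fun y => ∑ a, e a * (pd a w y * pd a w y))
      (∑ a, e a * (pd b (pd a w) x * pd a w x + pd a w x * pd b (pd a w) x)) x :=
    HP.sum _ fun a _ => (((h.sw1 a).hp hx b).mul ((h.sw1 a).hp hx b)).const_mul (e a)
  have h2 : HP b (fun y => ∑ a, e a * (pd a w y * pd a w y)) 0 x :=
    hp_congrU h.op hx h.null (HP.const b 0 x)
  have h3 := h1.pd.symm.trans h2.pd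
  have h4 : ∑ a, e a * (pd b (pd a w) x * pd a w x + pd a w x * pd b (pd a w) x) =
      2 * ∑ a, e a * (pd a w x * pd b (pd a w) x) := by
    rw [Finset.mul_sum]; exact Finset.sum_congr rfl fun a _ => by ring
  linarith

/-- second derivative of the null condition -/
lemma null2 {x : E m} (hx : x ∈ U) (b c : Fin m) :
    ∑ a, e a * (pd a w x * pd a (pd b (pd c w)) x) =
      - ∑ a, e a * (pd a (pd b w) x * pd a (pd c w) x) := by
  have h1 : HP b (fun y => ∑ a, e a * (pd a w y * pd c (pd a w) y))
      (∑ a, e a * (pd b (pd a w) x * pd c (pd a w) x + pd a w x * pd b (pd c (pd a w)) x)) x :=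
    HP.sum _ fun a _ => (((h.sw1 a).hp hx b).mul ((h.sw2 c a).hp hx b)).const_mul (e a)
  have h2 : HP b (fun y => ∑ a, e a * (pd a w y * pd c (pd a w) y)) 0 x :=
    hp_congrU h.op hx (fun y hy => h.null1 hy c) (HP.const b 0 x)
  have h3 := h1.pd.symm.trans h2.pd
  have h5 : ∀ a, pd b (pd c (pd a w)) x = pd a (pd b (pd c w)) x := by
    intro a
    rw [pd_congrU h.op hx (fun y hy => h.w2 hy c a) b, pd_comm h.op (h.sw1 c) hx b a]
  have h4 : ∑ a, e a * (pd b (pd a w) x * pd c (pd a w) x + pd a w x * pd b (pd c (pd a w)) x) =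
      ∑ a, e a * (pd a w x * pd a (pd b (pd c w)) x) +
        ∑ a, e a * (pd a (pd b w) x * pd a (pd c w) x) := by
    rw [← Finset.sum_add_distrib]
    refine Finset.sum_congr rfl fun a _ => ?_
    rw [h5, h.w2 hx b a, h.w2 hx c a]; ring
  linarith

end KSg

end Vale.Agent.P366.H896
end
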