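import Vale.Agent.P366.H896.X1a

/-! The Christoffel symbols of a metric of Kerr-Schild form. -/

open MeasureTheory Metric Filter Topology Set
open scoped ContDiff

noncomputable section
namespace Vale.Agent.P366.H896
open Vale.Agent.P366.Stmt Vale.Agent.P366.T2

variable {m : ℕ}

/-- `dV(k)`, where `k` is the vector `η⁻¹ dw`. -/
def Vk (e : Fin m → ℝ) (w V : E m → ℝ) (x : E m) : ℝ := ∑ a, e a * (pd a w x * pd a V x)

/-- `□ w = η^{ab} w_{ab}`. -/
def th (e : Fin m → ℝ) (w : E m → ℝ) (x : E m) : ℝ := ∑ a, e a * pd a (pd a w) x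

/-- The tensor `M` with `Γ^c_{ab} = k^c M_{ab} - V^c w_a w_b / 2`. -/
def Mt (e : Fin m → ℝ) (w V : E m → ℝ) (a b : Fin m) (x : E m) : ℝ :=
  V x * pd a (pd b w) x + (pd a V x * pd b w x + pd b V x * pd a w x) / 2 +
    V x * Vk e w V x * (pd a w x * pd b w x) / 2

namespace KS0

variable {e : Fin m → ℝ} {g : Field m} {w V : E m → ℝ} {U : Set (E m)} (h : KS0 e g w V U)
include h

lemma pd_g {x : E m} (hx : x ∈ U) (c a b : Fin m) :
    pd c (fun y => g y a b) x = pd c V x * (pd a w x * pd b w x) +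
      V x * (pd c (pd a w) x * pd b w x + pd a w x * pd c (pd b w) x) := by
  have h1 : HP c (fun y => (if a = b then e a else 0) + V y * (pd a w y * pd b w y))
      (0 + (pd c V x * (pd a w x * pd b w x) +
        V x * (pd c (pd a w) x * pd b w x + pd a w x * pd c (pd b w) x))) x :=
    (HP.const c _ x).add ((h.sV0.hp hx c).mul (((h.sw1 a).hp hx c).mul ((h.sw1 b).hp hx c)))
  have h2 := (hp_congrU h.op hx (fun y hy => h.hg y hy a b) h1).pd
  rw [h2, zero_add]

/-- lower Christoffel symbols -/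
lemma low {x : E m} (hx : x ∈ U) (l i j : Fin m) :
    pd i (fun y => g y j l) x + pd j (fun y => g y i l) x - pd l (fun y => g y i j) x =
      2 * (V x * pd i (pd j w) x * pd l w x) +
        (pd i V x * pd j w x + pd j V x * pd i w x) * pd l w x -
        pd l V x * (pd i w x * pd j w x) := by
  rw [h.pd_g hx, h.pd_g hx, h.pd_g hx, h.w2 hx j i, h.w2 hx l i, h.w2 hx l j]
  ring

theorem chr_eq {x : E m} (hx : x ∈ U) (hn : ∑ a, e a * (pd a w x * pd a w x) = 0)
    (c a b : Fin m) :
    chr g c a b x = (e c * pd c w x) * Mt e w V a b x -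
      (e c * pd c V x) * (pd a w x * pd b w x) / 2 := by
  unfold chr
  have e1 : ∀ l, up g c l x * (pd a (fun y => g y b l) x + pd b (fun y => g y a l) x -
      pd l (fun y => g y a b) x) =
      (if c = l then e c * (2 * (V x * pd a (pd b w) x * pd c w x) +
        (pd a V x * pd b w x + pd b V x * pd a w x) * pd c w x -
        pd c V x * (pd a w x * pd b w x)) else 0) -
      (V x * (e c * pd c w x) * (2 * (V x * pd a (pd b w) x) +
        (pd a V x * pd b w x + pd b V x * pd a w x))) * (e l * (pd l w x * pd l w x)) +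
      (V x * (e c * pd c w x) * (pd a w x * pd b w x)) * (e l * (pd l w x * pd l V x)) := by
    intro l
    rw [h.up_eq hx hn, h.low hx]
    split_ifs with hcl
    · subst hcl; ring
    · ring
  simp only [e1, Finset.sum_add_distrib, Finset.sum_sub_distrib, Finset.sum_ite_eq,
    Finset.mem_univ, if_true, ← Finset.mul_sum, hn]
  unfold Mt Vk
  ring

end KS0

namespace KSg

variable {e : Fin m → ℝ} {g : Field m} {w V : E m → ℝ} {U : Set (E m)} (h : KSg e g w V U)
include h

lemma chr_eq {x : E m} (hx : x ∈ U) (c a b : Fin m) :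
    chr g c a b x = (e c * pd c w x) * Mt e w V a b x -
      (e c * pd c V x) * (pd a w x * pd b w x) / 2 := h.toKS0.chr_eq hx (h.null x hx) c a b

lemma sVk : CU U (Vk e w V) := CR.sum _ fun a => (CR.const _).mul ((h.sw1 a).mul (h.sV1 a))

lemma sMt (a b : Fin m) : CU U (Mt e w V a b) := by
  have h1 : CU U (fun x => V x * pd a (pd b w) x +
      (pd a V x * pd b w x + pd b V x * pd a w x) * (1 / 2) +
      V x * Vk e w V x * (pd a w x * pd b w x) * (1 / 2)) :=
    ((h.sV0.mul (h.sw2 a b)).add ((((h.sV1 a).mul (h.sw1 b)).add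
      ((h.sV1 b).mul (h.sw1 a))).mul (CR.const _))).add
      (((h.sV0.mul h.sVk).mul ((h.sw1 a).mul (h.sw1 b))).mul (CR.const _))
  intro x hx
  refine (h1 x hx).congr_of_eventuallyEq (Eventually.of_forall fun y => ?_)
  unfold Mt; ring

/-- `k^a w_a = 0`, `k^a w_{ab} = 0`: contraction of `M` with `k` -/
lemma Mt_k {x : E m} (hx : x ∈ U) (a : Fin m) :
    ∑ b, (e b * pd b w x) * Mt e w V a b x = Vk e w V x * pd a w x / 2 := by
  have e1 : ∀ b, (e b * pd b w x) * Mt e w V a b x =
      V x * (e b * (pd b w x * pd a (pd b w) x)) +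
      (pd a V x / 2 + V x * Vk e w V x * pd a w x / 2) * (e b * (pd b w x * pd b w x)) +
      (pd a w x / 2) * (e b * (pd b w x * pd b V x)) := by
    intro b; unfold Mt; ring
  simp only [e1, Finset.sum_add_distrib, ← Finset.mul_sum, h.null x hx, h.null1 hx a]
  unfold Vk; ring

lemma chr_tr {x : E m} (hx : x ∈ U) (a : Fin m) : ∑ c, chr g c a c x = 0 := by
  have e1 : ∀ c, chr g c a c x = (e c * pd c w x) * Mt e w V a c x -
      pd a w x / 2 * (e c * (pd c w x * pd c V x)) := by
    intro c; rw [h.chr_eq hx]; ring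
  simp only [e1, Finset.sum_sub_distrib, ← Finset.mul_sum, h.Mt_k hx a]
  unfold Vk; ring

lemma Mt_symm {x : E m} (hx : x ∈ U) (a b : Fin m) : Mt e w V a b x = Mt e w V b a x := by
  unfold Mt; rw [h.w2 hx a b]; ring

lemma chr_symm {x : E m} (hx : x ∈ U) (c a b : Fin m) : chr g c a b x = chr g c b a x := by
  rw [h.chr_eq hx, h.chr_eq hx, h.Mt_symm hx]; ring

lemma chr_tr' {x : E m} (hx : x ∈ U) (a : Fin m) : ∑ c, chr g c c a x = 0 := by
  rw [← h.chr_tr hx a]
  exact Finset.sum_congr rfl fun c _ => h.chr_symm hx c c a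

lemma schr (c a b : Fin m) : CU U (chr g c a b) := by
  have h1 : CU U (fun x => (e c * pd c w x) * Mt e w V a b x -
      (e c * pd c V x) * (pd a w x * pd b w x) * (1 / 2)) :=
    (((CR.const _).mul (h.sw1 c)).mul (h.sMt a b)).sub
      ((((CR.const _).mul (h.sV1 c)).mul ((h.sw1 a).mul (h.sw1 b))).mul (CR.const _))
  intro x hx
  refine (h1 x hx).congr_of_eventuallyEq ?_
  filter_upwards [h.op.mem_nhds hx] with y hy
  rw [h.chr_eq hy]; ring

/-- The quadratic term of the Ricci tensor. -/
lemma quad {x : E m} (hx : x ∈ U) (a b : Fin m) :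
    ∑ c, ∑ d, chr g c b d x * chr g d a c x =
      Vk e w V x ^ 2 * (pd a w x * pd b w x) / 2 := by
  have e1 : ∀ c, ∑ d, chr g c b d x * chr g d a c x =
      (e c * pd c w x) * Mt e w V a c x * (Vk e w V x * pd b w x / 2) -
      (e c * (pd c w x * pd c w x)) * (pd a w x / 2 * ∑ d, (e d * pd d V x) * Mt e w V b d x) +
      (e c * (pd c w x * pd c V x)) * (pd a w x * pd b w x / 4 * Vk e w V x) := by
    intro c
    have e2 : ∀ d, chr g c b d x * chr g d a c x =
        ((e c * pd c w x) * Mt e w V a c x) * ((e d * pd d w x) * Mt e w V b d x) -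
        ((e c * (pd c w x * pd c w x)) * (pd a w x / 2)) * ((e d * pd d V x) * Mt e w V b d x) -
        ((e c * pd c V x) * Mt e w V a c x * pd b w x / 2) * (e d * (pd d w x * pd d w x)) +
        ((e c * (pd c w x * pd c V x)) * (pd a w x * pd b w x / 4)) *
          (e d * (pd d w x * pd d V x)) := by
      intro d
      rw [h.chr_eq hx, h.chr_eq hx]; ring
    simp only [e2, Finset.sum_add_distrib, Finset.sum_sub_distrib, ← Finset.mul_sum,
      h.null x hx, h.Mt_k hx b]
    unfold Vk; ring
  simp only [e1, Finset.sum_add_distrib, Finset.sum_sub_distrib, ← Finset.sum_mul,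
    h.null x hx, h.Mt_k hx a]
  unfold Vk; ring

end KSg

end Vale.Agent.P366.H896
end
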