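import Vale.Agent.P366.H896.X1b

/-! The Ricci and Einstein tensors of a metric of Kerr-Schild form. -/

open MeasureTheory Metric Filter Topology Set
open scoped ContDiff

noncomputable section
namespace Vale.Agent.P366.H896
open Vale.Agent.P366.Stmt Vale.Agent.P366.T2

variable {m : ℕ}

/-- `□ V` (flat). -/
def bx (e : Fin m → ℝ) (V : E m → ℝ) (x : E m) : ℝ := ∑ a, e a * pd a (pd a V) x

/-- `k^c V_{ca}` -/
def Xa (e : Fin m → ℝ) (w V : E m → ℝ) (a : Fin m) (x : E m) : ℝ :=
  ∑ c, e c * (pd c w x * pd c (pd a V) x)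

/-- `V^c w_{ca}` -/
def qa (e : Fin m → ℝ) (w V : E m → ℝ) (a : Fin m) (x : E m) : ℝ :=
  ∑ c, e c * (pd c V x * pd c (pd a w) x)

/-- `w^c_a w_{cb}` -/
def ws (e : Fin m → ℝ) (w : E m → ℝ) (a b : Fin m) (x : E m) : ℝ :=
  ∑ c, e c * (pd c (pd a w) x * pd c (pd b w) x)

/-- `V_{ab} k^a k^b` -/
def Vkk (e : Fin m → ℝ) (w V : E m → ℝ) (x : E m) : ℝ :=
  ∑ a, e a * (pd a w x * Xa e w V a x)

/-- `A_a = θ V_a + k^c V_{ca} - V^c w_{ca}` -/
def Aa (e : Fin m → ℝ) (w V : E m → ℝ) (a : Fin m) (x : E m) : ℝ :=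
  th e w x * pd a V x + Xa e w V a x - qa e w V a x

/-- `|w|² = w_{ab} w^{ab}` -/
def ww (e : Fin m → ℝ) (w : E m → ℝ) (x : E m) : ℝ := ∑ a, e a * ws e w a a x

namespace KSg

variable {e : Fin m → ℝ} {g : Field m} {w V : E m → ℝ} {U : Set (E m)} (h : KSg e g w V U)
include h

lemma hp_Vk {x : E m} (hx : x ∈ U) (c : Fin m) :
    HP c (Vk e w V) (∑ a, e a * (pd c (pd a w) x * pd a V x + pd a w x * pd c (pd a V) x)) x :=
  HP.sum _ fun a _ => (((h.sw1 a).hp hx c).mul ((h.sV1 a).hp hx c)).const_mul (e a)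

lemma Vk_k {x : E m} (hx : x ∈ U) :
    ∑ c, (e c * pd c w x) * pd c (Vk e w V) x = Vkk e w V x := by
  have e1 : ∀ c, (e c * pd c w x) * pd c (Vk e w V) x =
      ∑ a, ((e a * pd a V x) * (e c * (pd c w x * pd a (pd c w) x)) +
        (e a * pd a w x) * (e c * (pd c w x * pd c (pd a V) x))) := by
    intro c
    rw [(h.hp_Vk hx c).pd, Finset.mul_sum]
    refine Finset.sum_congr rfl fun a _ => ?_
    rw [h.w2 hx c a]; ring
  simp only [e1]
  rw [Finset.sum_comm]
  simp only [Finset.sum_add_distrib, ← Finset.mul_sum, h.null1 hx, mul_zero, zero_add]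
  unfold Vkk Xa
  exact Finset.sum_congr rfl fun a _ => by ring

lemma hp_Mt {x : E m} (hx : x ∈ U) (c a b : Fin m) :
    HP c (Mt e w V a b) (pd c V x * pd a (pd b w) x + V x * pd c (pd a (pd b w)) x +
      (pd c (pd a V) x * pd b w x + pd a V x * pd c (pd b w) x +
        (pd c (pd b V) x * pd a w x + pd b V x * pd c (pd a w) x)) * (1 / 2) +
      ((pd c V x * Vk e w V x + V x * pd c (Vk e w V) x) * (pd a w x * pd b w x) +
        V x * Vk e w V x * (pd c (pd a w) x * pd b w x + pd a w x * pd c (pd b w) x)) * (1 / 2))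
      x := by
  have h1 : HP c (fun x => V x * pd a (pd b w) x +
      (pd a V x * pd b w x + pd b V x * pd a w x) * (1 / 2) +
      V x * Vk e w V x * (pd a w x * pd b w x) * (1 / 2)) _ x :=
    (((h.sV0.hp hx c).mul ((h.sw2 a b).hp hx c)).add
      (((((h.sV1 a).hp hx c).mul ((h.sw1 b).hp hx c)).add
        (((h.sV1 b).hp hx c).mul ((h.sw1 a).hp hx c))).mul (HP.const c (1 / 2) x))).add
      ((((h.sV0.hp hx c).mul (h.sVk.hp hx c)).mul
        (((h.sw1 a).hp hx c).mul ((h.sw1 b).hp hx c))).mul (HP.const c (1 / 2) x))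
  have h2 : HP c (Mt e w V a b) _ x := h1.congr (Eventually.of_forall fun y => by
    unfold Mt; ring)
  convert h2 using 1
  ring

lemma pd_chr {x : E m} (hx : x ∈ U) (c a b : Fin m) :
    pd c (chr g c a b) x = (e c * pd c (pd c w) x) * Mt e w V a b x +
      (e c * pd c w x) * pd c (Mt e w V a b) x -
      ((e c * pd c (pd c V) x) * (pd a w x * pd b w x) + (e c * pd c V x) *
        (pd c (pd a w) x * pd b w x + pd a w x * pd c (pd b w) x)) / 2 := by
  have h1 : HP c (fun x => (e c * pd c w x) * Mt e w V a b x -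
      (e c * pd c V x) * (pd a w x * pd b w x) * (1 / 2)) _ x :=
    ((((h.sw1 c).hp hx c).const_mul (e c)).mul ((h.sMt a b).hp hx c)).sub
      (((((h.sV1 c).hp hx c).const_mul (e c)).mul
        (((h.sw1 a).hp hx c).mul ((h.sw1 b).hp hx c))).mul (HP.const c (1 / 2) x))
  have h2 := (hp_congrU h.op hx (fun y hy => by
    rw [h.chr_eq hy]; ring : ∀ y ∈ U, chr g c a b y = (e c * pd c w y) * Mt e w V a b y -
      (e c * pd c V y) * (pd a w y * pd b w y) * (1 / 2)) h1).pd
  rw [h2]; ring

/-- The divergence of the Christoffel symbols. -/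
lemma div_chr {x : E m} (hx : x ∈ U) (a b : Fin m) :
    ∑ c, pd c (chr g c a b) x = th e w x * Mt e w V a b x + Vk e w V x * pd a (pd b w) x -
      V x * ws e w a b x + (Xa e w V a x * pd b w x + Xa e w V b x * pd a w x) / 2 +
      (Vk e w V x ^ 2 + V x * Vkk e w V x) * (pd a w x * pd b w x) / 2 -
      bx e V x * (pd a w x * pd b w x) / 2 -
      (qa e w V a x * pd b w x + qa e w V b x * pd a w x) / 2 := by
  have e1 : ∀ c, pd c (chr g c a b) x = (e c * pd c (pd c w) x) * Mt e w V a b x +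
      (e c * (pd c w x * pd c V x)) * (pd a (pd b w) x + Vk e w V x * (pd a w x * pd b w x) / 2) +
      V x * (e c * (pd c w x * pd c (pd a (pd b w)) x)) +
      (e c * (pd c w x * pd c (pd a V) x)) * (pd b w x / 2) +
      (e c * (pd c w x * pd c (pd b V) x)) * (pd a w x / 2) +
      (e c * (pd c w x * pd b (pd c w) x)) * ((pd a V x + V x * Vk e w V x * pd a w x) / 2) +
      (e c * (pd c w x * pd a (pd c w) x)) * ((pd b V x + V x * Vk e w V x * pd b w x) / 2) +
      ((e c * pd c w x) * pd c (Vk e w V) x) * (V x * (pd a w x * pd b w x) / 2) -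
      (e c * pd c (pd c V) x) * (pd a w x * pd b w x / 2) -
      (e c * (pd c V x * pd c (pd a w) x)) * (pd b w x / 2) -
      (e c * (pd c V x * pd c (pd b w) x)) * (pd a w x / 2) := by
    intro c
    rw [h.pd_chr hx, (h.hp_Mt hx c a b).pd, h.w2 hx b c, h.w2 hx a c]
    ring
  simp only [e1, Finset.sum_add_distrib, Finset.sum_sub_distrib, ← Finset.sum_mul,
    ← Finset.mul_sum, h.null1 hx, h.null2 hx, h.Vk_k hx]
  unfold th Vk ws Xa bx qa
  ring

theorem ric_eq {x : E m} (hx : x ∈ U) (a b : Fin m) :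
    ric g a b x = (Vk e w V x + V x * th e w x) * pd a (pd b w) x - V x * ws e w a b x +
      (Aa e w V a x * pd b w x + Aa e w V b x * pd a w x) / 2 +
      (-bx e V x + V x * (Vkk e w V x + th e w x * Vk e w V x)) * (pd a w x * pd b w x) / 2 := by
  have h1 : ∑ k, pd b (chr g k a k) x = 0 := by
    have e1 : HP b (fun y => ∑ k, chr g k a k y) (∑ k, pd b (chr g k a k) x) x :=
      HP.sum _ fun k _ => (h.schr k a k).hp hx b
    have e2 : HP b (fun y => ∑ k, chr g k a k y) 0 x :=
      hp_congrU h.op hx (fun y hy => h.chr_tr hy a) (HP.const b 0 x)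
    exact e1.pd.symm.trans e2.pd
  have h2 : ∑ k, ∑ l, chr g k k l x * chr g l a b x = 0 := by
    rw [Finset.sum_comm]
    simp only [← Finset.sum_mul, h.chr_tr' hx, zero_mul, Finset.sum_const_zero]
  unfold ric
  simp only [Finset.sum_add_distrib, Finset.sum_sub_distrib, h1, h2, h.quad hx, h.div_chr hx]
  unfold Aa Mt
  ring

/-! ### contractions with `k` -/

lemma sum_ws_k {x : E m} (hx : x ∈ U) (a : Fin m) :
    ∑ b, (e b * pd b w x) * ws e w a b x = 0 := by
  unfold ws
  have e1 : ∀ b, (e b * pd b w x) * ∑ c, e c * (pd c (pd a w) x * pd c (pd b w) x) =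
      ∑ c, (e c * pd c (pd a w) x) * (e b * (pd b w x * pd c (pd b w) x)) := by
    intro b; rw [Finset.mul_sum]; exact Finset.sum_congr rfl fun c _ => by ring
  simp only [e1]
  rw [Finset.sum_comm]
  simp only [← Finset.mul_sum, h.null1 hx, mul_zero, Finset.sum_const_zero]

lemma sum_qa_k {x : E m} (hx : x ∈ U) : ∑ b, (e b * pd b w x) * qa e w V b x = 0 := by
  unfold qa
  have e1 : ∀ b, (e b * pd b w x) * ∑ c, e c * (pd c V x * pd c (pd b w) x) =
      ∑ c, (e c * pd c V x) * (e b * (pd b w x * pd c (pd b w) x)) := by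
    intro b; rw [Finset.mul_sum]; exact Finset.sum_congr rfl fun c _ => by ring
  simp only [e1]
  rw [Finset.sum_comm]
  simp only [← Finset.mul_sum, h.null1 hx, mul_zero, Finset.sum_const_zero]

lemma sum_Aa_k {x : E m} (hx : x ∈ U) : ∑ b, (e b * pd b w x) * Aa e w V b x =
    th e w x * Vk e w V x + Vkk e w V x := by
  have e1 : ∀ b, (e b * pd b w x) * Aa e w V b x =
      th e w x * (e b * (pd b w x * pd b V x)) + e b * (pd b w x * Xa e w V b x) -
        (e b * pd b w x) * qa e w V b x := by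
    intro b; unfold Aa; ring
  simp only [e1, Finset.sum_add_distrib, Finset.sum_sub_distrib, ← Finset.mul_sum, h.sum_qa_k hx]
  unfold Vk Vkk; ring

lemma ric_k {x : E m} (hx : x ∈ U) (a : Fin m) : ∑ b, (e b * pd b w x) * ric g a b x =
    (th e w x * Vk e w V x + Vkk e w V x) * pd a w x / 2 := by
  have e1 : ∀ b, (e b * pd b w x) * ric g a b x =
      (Vk e w V x + V x * th e w x) * (e b * (pd b w x * pd a (pd b w) x)) -
      V x * ((e b * pd b w x) * ws e w a b x) +
      (Aa e w V a x / 2 + (-bx e V x + V x * (Vkk e w V x + th e w x * Vk e w V x)) *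
        pd a w x / 2) * (e b * (pd b w x * pd b w x)) +
      (pd a w x / 2) * ((e b * pd b w x) * Aa e w V b x) := by
    intro b; rw [h.ric_eq hx]; ring
  simp only [e1, Finset.sum_add_distrib, Finset.sum_sub_distrib, ← Finset.mul_sum,
    h.null1 hx, h.null x hx, h.sum_ws_k hx, h.sum_Aa_k hx]
  ring

omit h in
lemma ws_symm (a b : Fin m) (x : E m) : ws e w a b x = ws e w b a x := by
  unfold ws; exact Finset.sum_congr rfl fun c _ => by ring

lemma ric_symm {x : E m} (hx : x ∈ U) (a b : Fin m) : ric g a b x = ric g b a x := by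
  rw [h.ric_eq hx, h.ric_eq hx, h.w2 hx a b, ws_symm a b]; ring

theorem scal_eq {x : E m} (hx : x ∈ U) : scal g x =
    Vkk e w V x + 2 * (th e w x * Vk e w V x) + V x * (th e w x ^ 2 - ww e w x) := by
  rw [scal_ric]
  have e1 : ∀ a, ∑ b, up g a b x * ric g a b x = e a * ric g a a x -
      (V x * (e a * pd a w x)) * ((th e w x * Vk e w V x + Vkk e w V x) * pd a w x / 2) := by
    intro a
    rw [← h.ric_k hx a]
    have e2 : ∀ b, up g a b x * ric g a b x = (if a = b then e a * ric g a a x else 0) -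
        (V x * (e a * pd a w x)) * ((e b * pd b w x) * ric g a b x) := by
      intro b
      rw [h.up_eq hx (h.null x hx)]
      split_ifs with hab
      · subst hab; ring
      · ring
    simp only [e2, Finset.sum_sub_distrib, Finset.sum_ite_eq, Finset.mem_univ, if_true,
      ← Finset.mul_sum]
  have e3 : ∀ a, e a * ric g a a x - (V x * (e a * pd a w x)) *
      ((th e w x * Vk e w V x + Vkk e w V x) * pd a w x / 2) =
      (Vk e w V x + V x * th e w x) * (e a * pd a (pd a w) x) - V x * (e a * ws e w a a x) +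
      (e a * pd a w x) * Aa e w V a x +
      ((-bx e V x + V x * (Vkk e w V x + th e w x * Vk e w V x)) / 2 -
        V x * (th e w x * Vk e w V x + Vkk e w V x) / 2) * (e a * (pd a w x * pd a w x)) := by
    intro a; rw [h.ric_eq hx]; ring
  simp only [e1, e3, Finset.sum_add_distrib, Finset.sum_sub_distrib, ← Finset.mul_sum,
    h.null x hx, h.sum_Aa_k hx]
  unfold th ww
  ring

lemma g_k {x : E m} (hx : x ∈ U) (b : Fin m) : ∑ a, (e a * pd a w x) * g x a b = pd b w x := by
  have e1 : ∀ a, (e a * pd a w x) * g x a b = (if a = b then pd b w x else 0) +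
      (V x * pd b w x) * (e a * (pd a w x * pd a w x)) := by
    intro a
    rw [h.hg x hx]
    split_ifs with hab
    · subst hab
      linear_combination (pd a w x) * h.he a
    · ring
  simp only [e1, Finset.sum_add_distrib, Finset.sum_ite_eq', Finset.mem_univ, if_true,
    ← Finset.mul_sum, h.null x hx]
  ring

/-- **The Einstein tensor on `k`.** -/
theorem ein_k {x : E m} (hx : x ∈ U) (b : Fin m) : ∑ a, (e a * pd a w x) * ein g a b x =
    -(th e w x * Vk e w V x + V x * (th e w x ^ 2 - ww e w x)) * pd b w x / 2 := by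
  have e1 : ∀ a, (e a * pd a w x) * ein g a b x = (e a * pd a w x) * ric g b a x -
      scal g x / 2 * ((e a * pd a w x) * g x a b) := by
    intro a; unfold ein; rw [h.ric_symm hx a b]; ring
  simp only [e1, Finset.sum_sub_distrib, ← Finset.mul_sum, h.ric_k hx, h.g_k hx, h.scal_eq hx]
  ring

/-- **The Einstein tensor on a null vector `l` with `w_a l^a = 1`, `w_{ab} l^b = 0`.** -/
theorem ein_l {x : E m} (hx : x ∈ U) {l : Fin m → ℝ} (hl : ∑ a, l a * pd a w x = 1)
    (hl2 : ∀ b, ∑ a, l a * pd a (pd b w) x = 0) (hg : ∑ a, ∑ b, g x a b * l a * l b = 0) :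
    ∑ a, ∑ b, ein g a b x * l a * l b = th e w x * (∑ a, l a * pd a V x) +
      ∑ a, l a * Xa e w V a x +
      (-bx e V x + V x * (Vkk e w V x + th e w x * Vk e w V x)) / 2 := by
  have hq : ∑ a, l a * qa e w V a x = 0 := by
    unfold qa
    have e1 : ∀ a, l a * ∑ c, e c * (pd c V x * pd c (pd a w) x) =
        ∑ c, (e c * pd c V x) * (l a * pd a (pd c w) x) := by
      intro a; rw [Finset.mul_sum]
      exact Finset.sum_congr rfl fun c _ => by rw [h.w2 hx c a]; ring
    simp only [e1]
    rw [Finset.sum_comm]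
    simp only [← Finset.mul_sum, hl2, mul_zero, Finset.sum_const_zero]
  have hA : ∑ a, l a * Aa e w V a x = th e w x * (∑ a, l a * pd a V x) +
      ∑ a, l a * Xa e w V a x := by
    have e1 : ∀ a, l a * Aa e w V a x = th e w x * (l a * pd a V x) + l a * Xa e w V a x -
        l a * qa e w V a x := by intro a; unfold Aa; ring
    simp only [e1, Finset.sum_add_distrib, Finset.sum_sub_distrib, ← Finset.mul_sum, hq, sub_zero]
  have hw : ∀ a, ∑ b, ws e w a b x * l b = 0 := by
    intro a
    unfold ws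
    have e1 : ∀ b, (∑ c, e c * (pd c (pd a w) x * pd c (pd b w) x)) * l b =
        ∑ c, (e c * pd c (pd a w) x) * (l b * pd b (pd c w) x) := by
      intro b; rw [Finset.sum_mul]
      exact Finset.sum_congr rfl fun c _ => by rw [h.w2 hx c b]; ring
    simp only [e1]
    rw [Finset.sum_comm]
    simp only [← Finset.mul_sum, hl2, mul_zero, Finset.sum_const_zero]
  have e1 : ∀ a, ∑ b, ric g a b x * l a * l b =
      (th e w x * (∑ a, l a * pd a V x) + ∑ a, l a * Xa e w V a x) / 2 *
        (l a * pd a w x) + (l a * Aa e w V a x) / 2 +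
      (-bx e V x + V x * (Vkk e w V x + th e w x * Vk e w V x)) / 2 * (l a * pd a w x) := by
    intro a
    have e2 : ∀ b, ric g a b x * l a * l b =
        ((Vk e w V x + V x * th e w x) * l a) * (l b * pd b (pd a w) x) -
        (V x * l a) * (ws e w a b x * l b) +
        (l a * Aa e w V a x / 2 + (-bx e V x + V x * (Vkk e w V x + th e w x * Vk e w V x)) / 2 *
          (l a * pd a w x)) * (l b * pd b w x) +
        (l a * pd a w x / 2) * (l b * Aa e w V b x) := by
      intro b; rw [h.ric_eq hx, h.w2 hx a b]; ring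
    simp only [e2, Finset.sum_add_distrib, Finset.sum_sub_distrib, ← Finset.mul_sum, hl, hl2 a,
      hw a, hA]
    ring
  have e3 : ∑ a, ∑ b, ein g a b x * l a * l b = ∑ a, ∑ b, ric g a b x * l a * l b -
      scal g x / 2 * ∑ a, ∑ b, g x a b * l a * l b := by
    rw [Finset.mul_sum, ← Finset.sum_sub_distrib]
    refine Finset.sum_congr rfl fun a _ => ?_
    rw [Finset.mul_sum, ← Finset.sum_sub_distrib]
    exact Finset.sum_congr rfl fun b _ => by unfold ein; ring
  rw [e3, hg]
  simp only [e1, Finset.sum_add_distrib, ← Finset.mul_sum, ← Finset.sum_div, hl, hA]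
  ring

end KSg

end Vale.Agent.P366.H896
end
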