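import Vale.Agent.P366.H896.X1c

/-! The Einstein tensor of a metric of Kerr-Schild form on a pair of vectors. -/

open MeasureTheory Metric Filter Topology Set
open scoped ContDiff

noncomputable section
namespace Vale.Agent.P366.H896.KSg

open Vale.Agent.P366.Stmt Vale.Agent.P366.T2

variable {m : ℕ} {e : Fin m → ℝ} {g : Field m} {w V : E m → ℝ} {U : Set (E m)}
  (h : KSg e g w V U)
include h

/-- **The Einstein tensor on a pair `u, l`** with `w_a l^a = 1`, `w_{ab} l^b = 0`, `w_a u^a = 0`. -/
theorem ein_ul {x : E m} (hx : x ∈ U) {l u : Fin m → ℝ} (hl : ∑ a, l a * pd a w x = 1)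
    (hl2 : ∀ b, ∑ a, l a * pd a (pd b w) x = 0) (hu : ∑ a, u a * pd a w x = 0)
    (hg : ∑ a, ∑ b, g x a b * u a * l b = 0) :
    ∑ a, ∑ b, ein g a b x * u a * l b = (th e w x * (∑ a, u a * pd a V x) +
      ∑ a, u a * Xa e w V a x - ∑ a, u a * qa e w V a x) / 2 := by
  have hA : ∑ a, u a * Aa e w V a x = th e w x * (∑ a, u a * pd a V x) +
      ∑ a, u a * Xa e w V a x - ∑ a, u a * qa e w V a x := by
    have e1 : ∀ a, u a * Aa e w V a x = th e w x * (u a * pd a V x) + u a * Xa e w V a x -
        u a * qa e w V a x := by intro a; unfold Aa; ring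
    simp only [e1, Finset.sum_add_distrib, Finset.sum_sub_distrib, ← Finset.mul_sum]
  have hw : ∀ a, ∑ b, ws e w a b x * l b = 0 := by
    intro a
    unfold ws
    have e1 : ∀ b, (∑ c, e c * (pd c (pd a w) x * pd c (pd b w) x)) * l b =
        ∑ c, (e c * pd c (pd a w) x) * (l b * pd b (pd c w) x) := by
      intro b; rw [Finset.sum_mul]
      exact Finset.sum_congr rfl fun c _ => by rw [h.w2 hx c b]; ring
    simp only [e1]
    rw [Finset.sum_comm]
    simp only [← Finset.mul_sum, hl2, mul_zero, Finset.sum_const_zero]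
  have e1 : ∀ a, ∑ b, ric g a b x * u a * l b =
      (u a * Aa e w V a x) / 2 + (u a * pd a w x) * ((∑ b, l b * Aa e w V b x) / 2 +
      (-bx e V x + V x * (Vkk e w V x + th e w x * Vk e w V x)) / 2) := by
    intro a
    have e2 : ∀ b, ric g a b x * u a * l b =
        ((Vk e w V x + V x * th e w x) * u a) * (l b * pd b (pd a w) x) -
        (V x * u a) * (ws e w a b x * l b) +
        (u a * Aa e w V a x / 2 + (-bx e V x + V x * (Vkk e w V x + th e w x * Vk e w V x)) / 2 *
          (u a * pd a w x)) * (l b * pd b w x) +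
        (u a * pd a w x / 2) * (l b * Aa e w V b x) := by
      intro b; rw [h.ric_eq hx, h.w2 hx a b]; ring
    simp only [e2, Finset.sum_add_distrib, Finset.sum_sub_distrib, ← Finset.mul_sum, hl, hl2 a,
      hw a]
    ring
  have e3 : ∑ a, ∑ b, ein g a b x * u a * l b = ∑ a, ∑ b, ric g a b x * u a * l b -
      scal g x / 2 * ∑ a, ∑ b, g x a b * u a * l b := by
    rw [Finset.mul_sum, ← Finset.sum_sub_distrib]
    refine Finset.sum_congr rfl fun a _ => ?_
    rw [Finset.mul_sum, ← Finset.sum_sub_distrib]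
    exact Finset.sum_congr rfl fun b _ => by unfold ein; ring
  rw [e3, hg]
  simp only [e1, Finset.sum_add_distrib, ← Finset.sum_mul, ← Finset.sum_div, hu, hA]
  ring

end Vale.Agent.P366.H896.KSg
end
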