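import Vale.Agent.P366.H896.X1c

/-! The superpotential of the mixed Einstein tensor of a metric of Kerr-Schild form. -/

open MeasureTheory Metric Filter Topology Set
open scoped ContDiff

noncomputable section
namespace Vale.Agent.P366.H896
open Vale.Agent.P366.Stmt Vale.Agent.P366.T2

variable {m : ℕ}

/-- `h_{ab} = V w_a w_b` -/
def hh (w V : E m → ℝ) (a b : Fin m) (x : E m) : ℝ := V x * (pd a w x * pd b w x)

/-- The superpotential `U^{ac}_b = (∂^a h^c_b - ∂^c h^a_b - δ^a_b ∂_d h^{cd} + δ^c_b ∂_d h^{ad}) / 2`,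
indices raised with the diagonal metric `e`. -/
def US (e : Fin m → ℝ) (w V : E m → ℝ) (a c b : Fin m) (x : E m) : ℝ :=
  (e a * e c * (pd a (hh w V c b) x - pd c (hh w V a b) x) -
    (if a = b then ∑ d, e c * e d * pd d (hh w V c d) x else 0) +
    (if c = b then ∑ d, e a * e d * pd d (hh w V a d) x else 0)) / 2

/-- The mixed Einstein tensor `G^a_b`. -/
def einM (g : Field m) (a b : Fin m) (x : E m) : ℝ := ∑ d, up g a d x * ein g d b x

/-- `φ = dV(k) + V θ` -/
def ph (e : Fin m → ℝ) (w V : E m → ℝ) (x : E m) : ℝ := Vk e w V x + V x * th e w x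

lemma US_anti (e : Fin m → ℝ) (w V : E m → ℝ) (a c b : Fin m) (x : E m) :
    US e w V a c b x = - US e w V c a b x := by
  unfold US; ring

namespace KSg

variable {e : Fin m → ℝ} {g : Field m} {w V : E m → ℝ} {U : Set (E m)} (h : KSg e g w V U)
include h

lemma shh (a b : Fin m) : CR 5 U (hh w V a b) :=
  (h.sV.le (by norm_num)).mul ((h.sw1' a).mul (h.sw1' b))

lemma sth : CR 4 U (th e w) := CR.sum _ fun a => (CR.const _).mul (h.sw2' a a)

lemma sVk' : CR 5 U (Vk e w V) :=
  CR.sum _ fun a => (CR.const _).mul ((h.sw1' a).mul (h.sV1' a))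

lemma sph : CR 4 U (ph e w V) :=
  (h.sVk'.le (by norm_num)).add ((h.sV.le (by norm_num)).mul h.sth)

lemma hp_hh {x : E m} (hx : x ∈ U) (c a b : Fin m) :
    HP c (hh w V a b) (pd c V x * (pd a w x * pd b w x) +
      V x * (pd c (pd a w) x * pd b w x + pd a w x * pd c (pd b w) x)) x :=
  (h.sV0.hp hx c).mul (((h.sw1 a).hp hx c).mul ((h.sw1 b).hp hx c))

lemma th_d {x : E m} (hx : x ∈ U) (a : Fin m) :
    HP a (th e w) (∑ c, e c * pd c (pd c (pd a w)) x) x := by
  have h1 : HP a (th e w) (∑ c, e c * pd a (pd c (pd c w)) x) x :=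
    HP.sum _ fun c _ => ((h.sw2 c c).hp hx a).const_mul (e c)
  have h2 : ∀ c, pd a (pd c (pd c w)) x = pd c (pd c (pd a w)) x := by
    intro c
    rw [pd_comm h.op (h.sw1 c) hx a c, pd_congrU h.op hx (fun y hy => h.w2 hy a c) c]
  simp only [h2] at h1
  exact h1

/-- `k · ∇θ = - |w|²` -/
lemma th_k {x : E m} (hx : x ∈ U) : ∑ a, e a * (pd a w x * pd a (th e w) x) = - ww e w x := by
  have h1 : ∀ a, pd a (th e w) x = ∑ c, e c * pd a (pd c (pd c w)) x := fun a =>
    (HP.sum _ fun c _ => ((h.sw2 c c).hp hx a).const_mul (e c) :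
      HP a (th e w) (∑ c, e c * pd a (pd c (pd c w)) x) x).pd
  have h2 : ∀ a, e a * (pd a w x * pd a (th e w) x) =
      ∑ c, e c * (e a * (pd a w x * pd a (pd c (pd c w)) x)) := by
    intro a; rw [h1, Finset.mul_sum, Finset.mul_sum]
    exact Finset.sum_congr rfl fun c _ => by ring
  simp only [h2]
  rw [Finset.sum_comm]
  simp only [← Finset.mul_sum, h.null2 hx]
  unfold ww ws
  rw [← Finset.sum_neg_distrib]
  exact Finset.sum_congr rfl fun c _ => by ring

/-- `∂^d h_{cd} = φ w_c` -/
lemma div_hh {x : E m} (hx : x ∈ U) (c : Fin m) :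
    ∑ d, e d * pd d (hh w V c d) x = ph e w V x * pd c w x := by
  have e1 : ∀ d, e d * pd d (hh w V c d) x = (e d * (pd d w x * pd d V x)) * pd c w x +
      V x * (e d * (pd d w x * pd c (pd d w) x)) + (V x * pd c w x) * (e d * pd d (pd d w) x) := by
    intro d; rw [(h.hp_hh hx d c d).pd, h.w2 hx d c]; ring
  simp only [e1, Finset.sum_add_distrib, ← Finset.sum_mul, ← Finset.mul_sum, h.null1 hx]
  unfold ph Vk th; ring

lemma hp_ph {x : E m} (hx : x ∈ U) (a : Fin m) :
    HP a (ph e w V) ((qa e w V a x + Xa e w V a x) +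
      (pd a V x * th e w x + V x * pd a (th e w) x)) x := by
  have h1 : HP a (ph e w V) _ x := (h.hp_Vk hx a).add ((h.sV0.hp hx a).mul (h.sth.hp hx a))
  have h2 : ∑ c, e c * (pd a (pd c w) x * pd c V x + pd c w x * pd a (pd c V) x) =
      qa e w V a x + Xa e w V a x := by
    unfold qa Xa
    rw [← Finset.sum_add_distrib]
    exact Finset.sum_congr rfl fun c _ => by rw [h.w2 hx a c, h.v2 hx a c]; ring
  rw [h2] at h1
  exact h1

/-- `□ h_{ab}` -/
lemma box_hh {x : E m} (hx : x ∈ U) (a b : Fin m) : ∑ c, e c * pd c (pd c (hh w V a b)) x =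
    bx e V x * (pd a w x * pd b w x) + 2 * (qa e w V a x * pd b w x + qa e w V b x * pd a w x) +
      V x * (pd a (th e w) x * pd b w x + pd b (th e w) x * pd a w x) +
      2 * (V x * ws e w a b x) := by
  have h1 : ∀ c, pd c (pd c (hh w V a b)) x =
      pd c (pd c V) x * (pd a w x * pd b w x) +
        pd c V x * (pd c (pd a w) x * pd b w x + pd a w x * pd c (pd b w) x) +
      (pd c V x * (pd c (pd a w) x * pd b w x + pd a w x * pd c (pd b w) x) +
        V x * ((pd c (pd c (pd a w)) x * pd b w x + pd c (pd a w) x * pd c (pd b w) x) +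
          (pd c (pd a w) x * pd c (pd b w) x + pd a w x * pd c (pd c (pd b w)) x))) := by
    intro c
    have h2 : HP c (fun y => pd c V y * (pd a w y * pd b w y) +
        V y * (pd c (pd a w) y * pd b w y + pd a w y * pd c (pd b w) y)) _ x :=
      (((h.sV1 c).hp hx c).mul (((h.sw1 a).hp hx c).mul ((h.sw1 b).hp hx c))).add
        ((h.sV0.hp hx c).mul ((((h.sw2 c a).hp hx c).mul ((h.sw1 b).hp hx c)).add
          (((h.sw1 a).hp hx c).mul ((h.sw2 c b).hp hx c))))
    exact (hp_congrU h.op hx (fun y hy => (h.hp_hh hy c a b).pd) h2).pd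
  have e1 : ∀ c, e c * pd c (pd c (hh w V a b)) x =
      (e c * pd c (pd c V) x) * (pd a w x * pd b w x) +
      (e c * (pd c V x * pd c (pd a w) x)) * (2 * pd b w x) +
      (e c * (pd c V x * pd c (pd b w) x)) * (2 * pd a w x) +
      (e c * pd c (pd c (pd a w)) x) * (V x * pd b w x) +
      (e c * pd c (pd c (pd b w)) x) * (V x * pd a w x) +
      (e c * (pd c (pd a w) x * pd c (pd b w) x)) * (2 * V x) := by
    intro c; rw [h1]; ring
  simp only [e1, Finset.sum_add_distrib, ← Finset.sum_mul, ← (h.th_d hx _).pd]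
  unfold bx qa ws
  simp only [(h.th_d hx a).pd, (h.th_d hx b).pd]
  ring

lemma hp_US {x : E m} (hx : x ∈ U) (a c b : Fin m) : HP c (US e w V a c b)
    ((e a * e c * (pd c (pd a (hh w V c b)) x - pd c (pd c (hh w V a b)) x) -
      (if a = b then 1 else 0) * (e c * pd c (fun y => ph e w V y * pd c w y) x) +
      (if c = b then 1 else 0) * (e a * pd c (fun y => ph e w V y * pd a w y) x)) * (1 / 2)) x := by
  have h1 : ∀ y ∈ U, US e w V a c b y =
      (e a * e c * (pd a (hh w V c b) y - pd c (hh w V a b) y) -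
        (if a = b then 1 else 0) * (e c * (ph e w V y * pd c w y)) +
        (if c = b then 1 else 0) * (e a * (ph e w V y * pd a w y))) * (1 / 2) := by
    intro y hy
    have h2 : ∀ c, ∑ d, e c * e d * pd d (hh w V c d) y = e c * (ph e w V y * pd c w y) := by
      intro c
      rw [← h.div_hh hy c, Finset.mul_sum]
      exact Finset.sum_congr rfl fun d _ => by ring
    have h3 : ∑ d, e a * e d * pd d (hh w V a d) y = e a * (ph e w V y * pd a w y) := by
      rw [← h.div_hh hy a, Finset.mul_sum]
      exact Finset.sum_congr rfl fun d _ => by ring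
    unfold US
    rw [h2, h3]
    split_ifs <;> ring
  have s1 : ∀ d, HP c (fun y => ph e w V y * pd d w y)
      (pd c (fun y => ph e w V y * pd d w y) x) x := fun d =>
    HP.of_diff ((h.sph.mul ((h.sw1' d).le (by norm_num)) : CR 4 U _).diff hx)
  have s2 : ∀ a c' b, HP c (pd a (hh w V c' b)) (pd c (pd a (hh w V c' b)) x) x :=
    fun a c' b => HP.of_diff (((h.shh c' b).pd h.op a : CR 4 U _).diff hx)
  have h4 : HP c (fun y => (e a * e c * (pd a (hh w V c b) y - pd c (hh w V a b) y) -
        (if a = b then 1 else 0) * (e c * (ph e w V y * pd c w y)) +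
        (if c = b then 1 else 0) * (e a * (ph e w V y * pd a w y))) * (1 / 2)) _ x :=
    ((((((s2 a c b).sub (s2 c a b)).const_mul (e a * e c)).sub
      (((s1 c).const_mul (e c)).const_mul (if a = b then 1 else 0))).add
      (((s1 a).const_mul (e a)).const_mul (if c = b then 1 else 0))).mul (HP.const c (1 / 2) x))
  have h5 := hp_congrU h.op hx h1 h4
  convert h5 using 1
  ring

/-- **The superpotential identity** `G^a_b = ∂_c U^{ac}_b`. -/
theorem superpot {x : E m} (hx : x ∈ U) (a b : Fin m) :
    einM g a b x = ∑ c, pd c (US e w V a c b) x := by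
  have d1 : ∀ a d, pd a (fun y => ph e w V y * pd d w y) x =
      ((qa e w V a x + Xa e w V a x) + (pd a V x * th e w x + V x * pd a (th e w) x)) *
        pd d w x + ph e w V x * pd a (pd d w) x := fun a d =>
    ((h.hp_ph hx a).mul ((h.sw1 d).hp hx a)).pd
  -- `Σ_c e_c ∂_c ∂_a h_{cb} = ∂_a (φ w_b)`
  have d2 : ∑ c, e c * pd c (pd a (hh w V c b)) x = pd a (fun y => ph e w V y * pd b w y) x := by
    have e1 : HP a (fun y => ∑ c, e c * pd c (hh w V b c) y)
        (∑ c, e c * pd a (pd c (hh w V b c)) x) x :=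
      HP.sum _ fun c _ => (HP.of_diff (((h.shh b c).pd h.op c : CR 4 U _).diff hx)).const_mul _
    have e2 := (hp_congrU h.op hx (fun y hy => (h.div_hh hy b).symm) e1).pd
    rw [e2]
    refine Finset.sum_congr rfl fun c _ => ?_
    have e3 : hh w V c b = hh w V b c := by funext y; unfold hh; ring
    rw [e3, pd_comm h.op ((h.shh b c).le (by norm_num)) hx a c]
  -- `Σ_c e_c ∂_c (φ w_c) = R`
  have d3 : ∑ c, e c * pd c (fun y => ph e w V y * pd c w y) x = scal g x := by
    have e1 : ∀ c, e c * pd c (fun y => ph e w V y * pd c w y) x =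
        (e c * pd c w x) * qa e w V c x + e c * (pd c w x * Xa e w V c x) +
        th e w x * (e c * (pd c w x * pd c V x)) +
        V x * (e c * (pd c w x * pd c (th e w) x)) + ph e w V x * (e c * pd c (pd c w) x) := by
      intro c; rw [d1]; ring
    simp only [e1, Finset.sum_add_distrib, ← Finset.mul_sum, h.sum_qa_k hx, h.th_k hx]
    rw [h.scal_eq hx]
    unfold ph Vkk Vk th
    ring
  have h1 : ∑ c, pd c (US e w V a c b) x =
      e a * (pd a (fun y => ph e w V y * pd b w y) x - ∑ c, e c * pd c (pd c (hh w V a b)) x) / 2 -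
      (if a = b then 1 else 0) * scal g x / 2 +
      e a * pd b (fun y => ph e w V y * pd a w y) x / 2 := by
    have e1 : ∀ c, pd c (US e w V a c b) x =
        (e a / 2) * (e c * pd c (pd a (hh w V c b)) x) -
        (e a / 2) * (e c * pd c (pd c (hh w V a b)) x) -
        ((if a = b then 1 else 0) / 2) * (e c * pd c (fun y => ph e w V y * pd c w y) x) +
        (if c = b then e a * pd b (fun y => ph e w V y * pd a w y) x / 2 else 0) := by
      intro c
      rw [(h.hp_US hx a c b).pd]
      by_cases hcb : c = b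
      · subst hcb
        simp only [if_true]
        ring
      · simp only [if_neg hcb]
        ring
    simp only [e1, Finset.sum_add_distrib, Finset.sum_sub_distrib, ← Finset.mul_sum, d2, d3,
      Finset.sum_ite_eq', Finset.mem_univ, if_true]
    ring
  rw [h1, h.box_hh hx, d1, d1]
  -- the Einstein tensor
  have h2 : einM g a b x = e a * ein g a b x + V x * (e a * pd a w x) *
      ((th e w x * Vk e w V x + V x * (th e w x ^ 2 - ww e w x)) * pd b w x / 2) := by
    unfold einM
    have e1 : ∀ d, up g a d x * ein g d b x = (if a = d then e a * ein g a b x else 0) -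
        (V x * (e a * pd a w x)) * ((e d * pd d w x) * ein g d b x) := by
      intro d
      rw [h.up_eq hx (h.null x hx)]
      split_ifs with hd
      · subst hd; ring
      · ring
    simp only [e1, Finset.sum_sub_distrib, Finset.sum_ite_eq, Finset.mem_univ, if_true,
      ← Finset.mul_sum, h.ein_k hx]
    ring
  rw [h2]
  unfold ein
  rw [h.ric_eq hx, h.scal_eq hx, h.hg x hx]
  unfold Aa ph
  have hea := h.he a
  have hwab := h.w2 hx b a
  by_cases hab : a = b
  · subst hab
    simp only [if_true]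
    linear_combination
      (-(Vkk e w V x + 2 * (th e w x * Vk e w V x) + V x * (th e w x ^ 2 - ww e w x)) / 2) * hea
  · simp only [if_neg hab]
    rw [hwab]
    ring

end KSg

end Vale.Agent.P366.H896
end
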