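import Vale.Agent.P366.H896.X1g

/-! Metrics of Kerr-Schild form: the superpotential on a null covector and the isometry with the
flat metric. -/

open MeasureTheory Metric Filter Topology Set
open scoped ContDiff

noncomputable section
namespace Vale.Agent.P366.H896
open Vale.Agent.P366.Stmt Vale.Agent.P366.T2

variable {m : ℕ}

namespace KSg

variable {e : Fin m → ℝ} {g : Field m} {w V : E m → ℝ} {U : Set (E m)} (h : KSg e g w V U)
include h

/-- `U^{ac}_b w_c = V θ k^a w_b / 2` -/
theorem US_w {x : E m} (hx : x ∈ U) (a b : Fin m) : ∑ c, US e w V a c b x * pd c w x =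
    V x * th e w x * (e a * pd a w x) * pd b w x / 2 := by
  have h2 : ∀ c, ∑ d, e c * e d * pd d (hh w V c d) x = e c * (ph e w V x * pd c w x) := by
    intro c
    rw [← h.div_hh hx c, Finset.mul_sum]
    exact Finset.sum_congr rfl fun d _ => by ring
  have e1 : ∀ c, US e w V a c b x * pd c w x =
      (e a / 2) * (pd a V x * pd b w x) * (e c * (pd c w x * pd c w x)) +
      (e a / 2) * (V x * pd b w x) * (e c * (pd c w x * pd a (pd c w) x)) +
      (e a / 2) * (V x * pd a (pd b w) x) * (e c * (pd c w x * pd c w x)) -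
      (e a / 2) * (pd a w x * pd b w x) * (e c * (pd c w x * pd c V x)) -
      (e a / 2) * (V x * pd b w x) * (e c * (pd c w x * pd c (pd a w) x)) -
      (e a / 2) * (V x * pd a w x) * (e c * (pd c w x * pd c (pd b w) x)) -
      ((if a = b then 1 else 0) / 2 * ph e w V x) * (e c * (pd c w x * pd c w x)) +
      (if c = b then e a * (ph e w V x * pd a w x) / 2 * pd b w x else 0) := by
    intro c
    unfold US
    rw [h2, h2, (h.hp_hh hx a c b).pd, (h.hp_hh hx c a b).pd]
    by_cases hcb : c = b
    · subst hcb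
      simp only [if_true]
      split_ifs <;> ring
    · simp only [if_neg hcb]
      split_ifs <;> ring
  have h3 : ∀ b, ∑ c, e c * (pd c w x * pd c (pd b w) x) = 0 := by
    intro b
    rw [← h.null1 hx b]
    exact Finset.sum_congr rfl fun c _ => by rw [h.w2 hx c b]
  simp only [e1, Finset.sum_add_distrib, Finset.sum_sub_distrib, ← Finset.mul_sum, h.null x hx,
    h.null1 hx, h3, Finset.sum_ite_eq', Finset.mem_univ, if_true]
  unfold ph Vk
  ring

/-- the superpotential on the pair of covectors `nu, mm` with `w = ζ (nu + τ mm)` -/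
theorem US_pair {x : E m} (hx : x ∈ U) {nu mm : Fin m → ℝ} {z τ : ℝ} (hz : z ≠ 0) (hτ : τ ≠ 0)
    (hw : ∀ a, pd a w x = z * (nu a + τ * mm a)) (hn : ∑ a, nu a * (e a * pd a w x) = - (z * τ))
    (b : Fin m) : ∑ a, ∑ c, US e w V a c b x * nu a * mm c =
      - (V x * th e w x * pd b w x / 2) := by
  have h0 : ∑ a, ∑ c, US e w V a c b x * nu a * nu c = 0 := by
    have h1 : ∑ a, ∑ c, US e w V a c b x * nu a * nu c =
        - ∑ a, ∑ c, US e w V a c b x * nu a * nu c := by
      conv_lhs => rw [Finset.sum_comm]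
      rw [← Finset.sum_neg_distrib]
      refine Finset.sum_congr rfl fun a _ => ?_
      rw [← Finset.sum_neg_distrib]
      exact Finset.sum_congr rfl fun c _ => by rw [US_anti e w V a c b x]; ring
    linarith
  have h1 : ∑ a, ∑ c, US e w V a c b x * nu a * pd c w x =
      z * τ * ∑ a, ∑ c, US e w V a c b x * nu a * mm c := by
    have e1 : ∀ a c, US e w V a c b x * nu a * pd c w x = z * (US e w V a c b x * nu a * nu c) +
        z * τ * (US e w V a c b x * nu a * mm c) := by
      intro a c; rw [hw c]; ring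
    simp only [e1, Finset.sum_add_distrib, ← Finset.mul_sum, h0]
    ring
  have h2 : ∑ a, ∑ c, US e w V a c b x * nu a * pd c w x =
      V x * th e w x * pd b w x / 2 * ∑ a, nu a * (e a * pd a w x) := by
    rw [Finset.mul_sum]
    refine Finset.sum_congr rfl fun a _ => ?_
    have e1 : ∑ c, US e w V a c b x * nu a * pd c w x =
        nu a * ∑ c, US e w V a c b x * pd c w x := by
      rw [Finset.mul_sum]; exact Finset.sum_congr rfl fun c _ => by ring
    rw [e1, h.US_w hx a b]
    ring
  have h3 : z * τ * (∑ a, ∑ c, US e w V a c b x * nu a * mm c) =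
      z * τ * (- (V x * th e w x * pd b w x / 2)) := by
    rw [← h1, h2, hn]; ring
  exact mul_left_cancel₀ (mul_ne_zero hz hτ) h3

/-- `w_c G^c_b = k^a G_{ab}` -/
lemma w_einM {x : E m} (hx : x ∈ U) (b : Fin m) : ∑ c, pd c w x * einM g c b x =
    -(th e w x * Vk e w V x + V x * (th e w x ^ 2 - ww e w x)) * pd b w x / 2 := by
  rw [← h.ein_k hx b]
  unfold einM
  have e1 : ∀ c, pd c w x * ∑ d, up g c d x * ein g d b x =
      ∑ d, (pd c w x * up g c d x) * ein g d b x := by
    intro c; rw [Finset.mul_sum]; exact Finset.sum_congr rfl fun d _ => by ring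
  simp only [e1]
  rw [Finset.sum_comm]
  refine Finset.sum_congr rfl fun d _ => ?_
  rw [← Finset.sum_mul]
  congr 1
  have e2 : ∀ c, pd c w x * up g c d x = (if c = d then e d * pd d w x else 0) -
      (V x * (e d * pd d w x)) * (e c * (pd c w x * pd c w x)) := by
    intro c
    rw [h.up_eq hx (h.null x hx)]
    split_ifs with hc
    · subst hc; ring
    · ring
  simp only [e2, Finset.sum_sub_distrib, Finset.sum_ite_eq', Finset.mem_univ, if_true,
    ← Finset.mul_sum, h.null x hx]
  ring

lemma ein_symm {x : E m} (hx : x ∈ U) (a b : Fin m) : ein g a b x = ein g b a x := by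
  have hgs : g x a b = g x b a := by
    rw [h.hg x hx, h.hg x hx]
    by_cases hab : a = b
    · subst hab; rfl
    · rw [if_neg hab, if_neg (Ne.symm hab)]; ring
  unfold ein
  rw [h.ric_symm hx a b, hgs]

/-- `e_a G^a_b = G_{ab} + V w_a (θ V_k + V (θ² - |w|²)) w_b / 2` -/
lemma eM_eq {x : E m} (hx : x ∈ U) (a b : Fin m) : e a * einM g a b x = ein g a b x +
    V x * pd a w x * ((th e w x * Vk e w V x + V x * (th e w x ^ 2 - ww e w x)) *
      pd b w x / 2) := by
  unfold einM
  have e1 : ∀ d, up g a d x * ein g d b x = (if a = d then e a * ein g a b x else 0) -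
      (V x * (e a * pd a w x)) * ((e d * pd d w x) * ein g d b x) := by
    intro d
    rw [h.up_eq hx (h.null x hx)]
    split_ifs with hd
    · subst hd; ring
    · ring
  simp only [e1, Finset.sum_sub_distrib, Finset.sum_ite_eq, Finset.mem_univ, if_true,
    ← Finset.mul_sum, h.ein_k hx]
  linear_combination (ein g a b x + V x * pd a w x * ((th e w x * Vk e w V x +
    V x * (th e w x ^ 2 - ww e w x)) * pd b w x / 2)) * h.he a

/-- the map `φ X = X - (V/2) w(X) k` -/
def phi (e : Fin m → ℝ) (w V : E m → ℝ) (x : E m) (X : Fin m → ℝ) (a : Fin m) : ℝ :=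
  X a - V x / 2 * (∑ c, pd c w x * X c) * (e a * pd a w x)

omit h in
lemma sum2_phi (e : Fin m → ℝ) (w V : E m → ℝ) (x : E m) (B : Fin m → Fin m → ℝ)
    (X Y : Fin m → ℝ) : ∑ a, ∑ b, B a b * phi e w V x X a * phi e w V x Y b =
      ∑ a, ∑ b, B a b * X a * Y b -
      V x / 2 * (∑ c, pd c w x * X c) * (∑ b, (∑ a, (e a * pd a w x) * B a b) * Y b) -
      V x / 2 * (∑ c, pd c w x * Y c) * (∑ a, (∑ b, B a b * (e b * pd b w x)) * X a) +
      (V x / 2) ^ 2 * (∑ c, pd c w x * X c) * (∑ c, pd c w x * Y c) *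
        (∑ b, (∑ a, (e a * pd a w x) * B a b) * (e b * pd b w x)) := by
  have e1 : ∑ a, ∑ b, B a b * phi e w V x X a * phi e w V x Y b =
      ∑ a, ∑ b, (B a b * X a * Y b -
        V x / 2 * (∑ c, pd c w x * X c) * (((e a * pd a w x) * B a b) * Y b) -
        V x / 2 * (∑ c, pd c w x * Y c) * ((B a b * (e b * pd b w x)) * X a) +
        (V x / 2) ^ 2 * (∑ c, pd c w x * X c) * (∑ c, pd c w x * Y c) *
          (((e a * pd a w x) * B a b) * (e b * pd b w x))) :=
    Finset.sum_congr rfl fun a _ => Finset.sum_congr rfl fun b _ => by unfold phi; ring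
  rw [e1]
  simp only [Finset.sum_add_distrib, Finset.sum_sub_distrib]
  have e2 : ∑ b, (∑ a, (e a * pd a w x) * B a b) * Y b =
      ∑ a, ∑ b, ((e a * pd a w x) * B a b) * Y b := by
    rw [Finset.sum_comm]; exact Finset.sum_congr rfl fun b _ => Finset.sum_mul _ _ _
  have e3 : ∑ a, (∑ b, B a b * (e b * pd b w x)) * X a =
      ∑ a, ∑ b, (B a b * (e b * pd b w x)) * X a :=
    Finset.sum_congr rfl fun a _ => Finset.sum_mul _ _ _
  have e4 : ∑ b, (∑ a, (e a * pd a w x) * B a b) * (e b * pd b w x) =
      ∑ a, ∑ b, ((e a * pd a w x) * B a b) * (e b * pd b w x) := by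
    rw [Finset.sum_comm]; exact Finset.sum_congr rfl fun b _ => Finset.sum_mul _ _ _
  rw [e2, e3, e4]
  simp only [Finset.mul_sum]

lemma w_phi {x : E m} (hx : x ∈ U) (X : Fin m → ℝ) :
    ∑ a, pd a w x * phi e w V x X a = ∑ a, pd a w x * X a := by
  have e1 : ∀ a, pd a w x * phi e w V x X a = pd a w x * X a -
      V x / 2 * (∑ c, pd c w x * X c) * (e a * (pd a w x * pd a w x)) := by
    intro a; unfold phi; ring
  simp only [e1, Finset.sum_sub_distrib, ← Finset.mul_sum, h.null x hx, mul_zero, sub_zero]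

/-- **The isometry trick, metric.** -/
theorem g_phi {x : E m} (hx : x ∈ U) (X Y : Fin m → ℝ) :
    ∑ a, ∑ b, g x a b * phi e w V x X a * phi e w V x Y b = ∑ a, e a * (X a * Y a) := by
  have hgs : ∀ a b, g x a b = g x b a := by
    intro a b
    rw [h.hg x hx, h.hg x hx]
    by_cases hab : a = b
    · subst hab; rfl
    · rw [if_neg hab, if_neg (Ne.symm hab)]; ring
  have k1 : ∀ b, ∑ a, (e a * pd a w x) * g x a b = pd b w x := h.g_k hx
  have k2 : ∀ a, ∑ b, g x a b * (e b * pd b w x) = pd a w x := by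
    intro a
    rw [← h.g_k hx a]
    exact Finset.sum_congr rfl fun b _ => by rw [hgs a b]; ring
  have k3 : ∑ b, pd b w x * (e b * pd b w x) = 0 := by
    rw [← h.null x hx]; exact Finset.sum_congr rfl fun b _ => by ring
  rw [sum2_phi]
  simp only [k1, k2, k3]
  have e1 : ∀ a, ∑ b, g x a b * X a * Y b = e a * (X a * Y a) +
      V x * (pd a w x * X a) * ∑ b, pd b w x * Y b := by
    intro a
    have e2 : ∀ b, g x a b * X a * Y b = (if a = b then e a * (X a * Y a) else 0) +
        V x * (pd a w x * X a) * (pd b w x * Y b) := by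
      intro b
      rw [h.hg x hx]
      split_ifs with hab
      · subst hab; ring
      · ring
    simp only [e2, Finset.sum_add_distrib, Finset.sum_ite_eq, Finset.mem_univ, if_true,
      ← Finset.mul_sum]
  simp only [e1, Finset.sum_add_distrib, ← Finset.sum_mul, ← Finset.mul_sum]
  ring

/-- **The isometry trick, Einstein tensor.** -/
theorem ein_phi {x : E m} (hx : x ∈ U) (X Y : Fin m → ℝ) :
    ∑ a, ∑ b, ein g a b x * phi e w V x X a * phi e w V x Y b =
      ∑ a, ∑ b, e a * einM g a b x * X a * Y b := by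
  set α := -(th e w x * Vk e w V x + V x * (th e w x ^ 2 - ww e w x)) / 2 with hα
  have k1 : ∀ b, ∑ a, (e a * pd a w x) * ein g a b x = α * pd b w x := by
    intro b; rw [h.ein_k hx b, hα]; ring
  have k2 : ∀ a, ∑ b, ein g a b x * (e b * pd b w x) = α * pd a w x := by
    intro a
    rw [← k1 a]
    exact Finset.sum_congr rfl fun b _ => by rw [h.ein_symm hx a b]; ring
  have k3 : ∑ b, α * pd b w x * (e b * pd b w x) = 0 := by
    have : ∑ b, α * pd b w x * (e b * pd b w x) = α * ∑ b, e b * (pd b w x * pd b w x) := by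
      rw [Finset.mul_sum]; exact Finset.sum_congr rfl fun b _ => by ring
    rw [this, h.null x hx, mul_zero]
  rw [sum2_phi (B := fun a b => ein g a b x)]
  simp only [k1, k2, k3]
  have e1 : ∀ a b, e a * einM g a b x * X a * Y b = ein g a b x * X a * Y b -
      V x * α * (pd a w x * X a) * (pd b w x * Y b) := by
    intro a b; rw [h.eM_eq hx a b, hα]; ring
  have e2 : ∑ b, α * pd b w x * Y b = α * ∑ b, pd b w x * Y b := by
    rw [Finset.mul_sum]; exact Finset.sum_congr rfl fun b _ => by ring
  have e3 : ∑ a, α * pd a w x * X a = α * ∑ a, pd a w x * X a := by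
    rw [Finset.mul_sum]; exact Finset.sum_congr rfl fun b _ => by ring
  rw [e2, e3]
  simp only [e1, Finset.sum_sub_distrib, ← Finset.mul_sum, ← Finset.sum_mul]
  ring

end KSg

end Vale.Agent.P366.H896
end
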